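import Vale.Agent.P220.R2.H57J.Curve
import Vale.Agent.P220.R2.H57J.Fam

/-!
# The quarter arc of squared complex heights
-/

open Set Filter Topology
open scoped ContDiff

set_option linter.unusedSectionVars false

namespace Vale.Agent.P220.R2.H57J

open H57 H180

variable {E : Type} [NormedAddCommGroup E] [InnerProductSpace ℝ E] [FiniteDimensional ℝ E]
  {e u : E} {C : Set (E × E)} {γ : ℝ → E × E}

theorem cos_zero' (hγ : IsCurve e u C γ) (hγ2 : ∀ t, SS e (γ t) = γ (Real.pi - t)) (h : Orth e u)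
    (hC : ∀ z ∈ C, InT e u z) {t : ℝ} (h1 : wt e (γ t) = 0) : Real.cos t = 0 := by
  have hT : ∀ z, InT e u z → InT u e z := fun z hz => by
    refine ⟨hz.n1, ?_, ?_, hz.o⟩
    · have := hz.p1
      unfold InPl at *
      rw [add_comm]
      exact this
    · have := hz.p2
      unfold InPl at *
      rw [add_comm]
      exact this
  have h2 : γ t = SS e (γ t) := by
    refine h.swap.eq_of_wt (hT _ (hC _ (hγ.mem t))) (h.swap.InT_SS (hT _ (hC _ (hγ.mem t)))) ?_ ?_
    · rw [h.swap.wt_SS]
    · rw [h.swap.wtu_SS, h1, neg_zero]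
  rw [hγ2] at h2
  obtain ⟨k, hk⟩ := hγ.inj _ _ h2
  have h3 : t = Real.pi / 2 + k * Real.pi := by linarith
  rw [h3, Real.cos_add_int_mul_pi, Real.cos_pi_div_two, mul_zero]

/-- **The quarter arc.** -/
theorem exists_arcQ (hγ : IsCurve e u C γ) (hγ2 : ∀ t, SS e (γ t) = γ (Real.pi - t)) (h : Orth e u)
    (hC : ∀ z ∈ C, InT e u z) :
    ∃ c : ℝ → ℂ, IsArcQ c ∧ (∀ z ∈ C, ∃ τ ∈ Icc (0 : ℝ) 1, c τ = wt u z ^ 2) ∧
      ∀ τ ∈ Icc (0 : ℝ) 1, ∃ z ∈ C, wt u z ^ 2 = c τ := by
  set V : ℝ → ℂ := fun t => wt e (γ t) with hV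
  set W : ℝ → ℂ := fun t => wt u (γ t) with hW
  have hVs : ContDiff ℝ ∞ V := wt_smooth e hγ.smooth
  have hWs : ContDiff ℝ ∞ W := wt_smooth u hγ.smooth
  have hWe : ∀ t, W (-t) = -W t := fun t => by
    simp only [hW]
    rw [← hγ.sym, h.wtu_SS]
  have hWp : ∀ t, W (Real.pi - t) = W t := fun t => by
    simp only [hW]
    rw [← hγ2, h.swap.wt_SS]
  have hVp : ∀ t, V (Real.pi - t) = -V t := fun t => by
    simp only [hV]
    rw [← hγ2, h.swap.wtu_SS]
  set U : ℝ → ℂ := fun t => W t ^ 2 with hU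
  have hUs : ContDiff ℝ ∞ U := hWs.pow 2
  have hUe : ∀ t, U (-t) = U t := fun t => by
    simp only [hU, hWe]
    ring
  have hUp : ∀ t, U (t + Real.pi) = U t := fun t => by
    have h1 := hWp (-t)
    rw [sub_neg_eq_add, add_comm] at h1
    simp only [hU, h1, hWe]
    ring
  have hhalf : ContDiff ℝ ∞ fun x : ℝ => x / 2 := contDiff_id.div_const 2
  have hper : ∀ x : ℝ, U ((x + 2 * Real.pi) / 2) = U (x / 2) := fun x => by
    rw [← hUp (x / 2)]
    congr 1
    ring
  have heven : ∀ x : ℝ, U (-x / 2) = U (x / 2) := fun x => by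
    rw [← hUe (x / 2)]
    congr 1
    ring
  have s1 : Sym fun x => (U (x / 2)).re := ⟨re_smooth (hUs.comp hhalf), fun t => by rw [heven],
    fun t => by rw [hper]⟩
  have s2 : Sym fun x => (U (x / 2)).im := ⟨im_smooth (hUs.comp hhalf), fun t => by rw [heven],
    fun t => by rw [hper]⟩
  obtain ⟨c₁, hc₁, hc₁'⟩ := s1.exists_cos
  obtain ⟨c₂, hc₂, hc₂'⟩ := s2.exists_cos
  set c : ℝ → ℂ := fun t => (c₁ t : ℂ) + (c₂ t : ℂ) * Complex.I with hc
  have hcs : ContDiff ℝ ∞ c := of_re_im hc₁ hc₂
  have hcU : ∀ x, c ((1 - Real.cos x) / 2) = U (x / 2) := fun x => by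
    simp only [hc, hc₁', hc₂']
    exact Complex.re_add_im _
  have hcU2 : ∀ t, c ((1 - Real.cos (2 * t)) / 2) = U t := fun t => by
    rw [hcU]
    congr 1
    ring
  have hτ : ∀ x ∈ Icc (0 : ℝ) 1, (1 - Real.cos (Real.arccos (1 - 2 * x))) / 2 = x := by
    intro x hx
    rw [Real.cos_arccos (by linarith [hx.2]) (by linarith [hx.1])]
    ring
  have hrel : ∀ t, V t ^ 2 + W t ^ 2 = 1 := fun t => h.wt_rel (hC _ (hγ.mem t))
  have hVd : ∀ t, HasDerivAt V (deriv V t) t := fun t => (hVs.differentiable (by simp) t).hasDerivAt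
  have hWd : ∀ t, HasDerivAt W (deriv W t) t := fun t => (hWs.differentiable (by simp) t).hasDerivAt
  have hrel1 : ∀ t, V t * deriv V t + W t * deriv W t = 0 := by
    intro t
    have d1 := ((hVd t).pow 2).add ((hWd t).pow 2)
    have d2 : (fun t => V t ^ 2 + W t ^ 2) = fun _ => 1 := funext hrel
    have d3 : HasDerivAt (fun t => V t ^ 2 + W t ^ 2) _ t := d1
    rw [d2] at d3
    have d4 := d3.unique (hasDerivAt_const _ _)
    simp only [Nat.cast_ofNat] at d4
    linear_combination d4 / 2
  have hV1s : ContDiff ℝ ∞ (deriv V) := ((contDiff_infty_iff_deriv (𝕜 := ℝ)).1 hVs).2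
  have hW1s : ContDiff ℝ ∞ (deriv W) := ((contDiff_infty_iff_deriv (𝕜 := ℝ)).1 hWs).2
  have hV1d : ∀ t, HasDerivAt (deriv V) (deriv (deriv V) t) t := fun t =>
    (hV1s.differentiable (by simp) t).hasDerivAt
  have hW1d : ∀ t, HasDerivAt (deriv W) (deriv (deriv W) t) t := fun t =>
    (hW1s.differentiable (by simp) t).hasDerivAt
  have hrel2 : ∀ t, deriv V t * deriv V t + V t * deriv (deriv V) t +
      (deriv W t * deriv W t + W t * deriv (deriv W) t) = 0 := by
    intro t
    have d1 := ((hVd t).mul (hV1d t)).add ((hWd t).mul (hW1d t))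
    have d2 : (fun t => V t * deriv V t + W t * deriv W t) = fun _ => 0 := funext hrel1
    have d3 : HasDerivAt (fun t => V t * deriv V t + W t * deriv W t) _ t := d1
    rw [d2] at d3
    exact d3.unique (hasDerivAt_const _ _)
  -- the derivatives of `U`
  have hU1 : ∀ t, deriv U t = 2 * (W t * deriv W t) := by
    intro t
    have d1 := (hWd t).pow 2
    have d2 : HasDerivAt U _ t := d1
    rw [d2.deriv]
    simp only [Nat.cast_ofNat]
    ring
  have hU2 : ∀ t, HasDerivAt (deriv U) (2 * (deriv W t * deriv W t + W t * deriv (deriv W) t)) t := by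
    intro t
    have d1 := ((hWd t).mul (hW1d t)).const_mul (2 : ℂ)
    have d2 : deriv U = fun t => 2 * (W t * deriv W t) := funext hU1
    rw [d2]
    exact d1
  have key2 : ∀ t t' : ℝ, U t = U t' → Real.cos (2 * t) = Real.cos (2 * t') := by
    intro t t' htt
    have hW2 : W t ^ 2 = W t' ^ 2 := htt
    have hV2 : V t ^ 2 = V t' ^ 2 := by
      have h1 := hrel t
      have h2 := hrel t'
      linear_combination h1 - h2 - hW2
    have aux : ∀ (x : ℝ) (y : ℝ) (k : ℤ), x = y + k * (2 * Real.pi) → Real.cos x = Real.cos y := by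
      intro x y k hk
      rw [hk, Real.cos_add_int_mul_two_pi]
    rcases sq_eq_sq_iff_eq_or_eq_neg.1 hV2 with h1 | h1
    · rcases h.eq_or_of_wt (hC _ (hγ.mem t)) (hC _ (hγ.mem t')) h1 with h2 | h2
      · obtain ⟨k, hk⟩ := hγ.inj _ _ h2
        refine aux _ _ (2 * k) ?_
        push_cast
        linear_combination 2 * hk
      · rw [hγ.sym] at h2
        obtain ⟨k, hk⟩ := hγ.inj _ _ h2
        rw [← Real.cos_neg (2 * t')]
        refine aux _ _ (2 * k) ?_
        push_cast
        linear_combination 2 * hk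
    · rw [← hVp] at h1
      rcases h.eq_or_of_wt (hC _ (hγ.mem t)) (hC _ (hγ.mem (Real.pi - t'))) h1 with h2 | h2
      · obtain ⟨k, hk⟩ := hγ.inj _ _ h2
        rw [← Real.cos_neg (2 * t')]
        refine aux _ _ (2 * k + 1) ?_
        push_cast
        linear_combination 2 * hk
      · rw [hγ.sym] at h2
        obtain ⟨k, hk⟩ := hγ.inj _ _ h2
        refine aux _ _ (2 * k - 1) ?_
        push_cast
        linear_combination 2 * hk
  refine ⟨c, ⟨hcs, ?_, ?_, ?_, ?_⟩, ?_, ?_⟩
  · have h1 := hcU 0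
    rw [Real.cos_zero, sub_self, zero_div] at h1
    rw [h1]
    have h2 : W 0 = 0 := by
      simp only [hW, hγ.zero]
      apply Complex.ext
      · rw [wt_re]
        simp [h.wv]
      · rw [wt_im]
        simp
    simp only [hU, h2]
    ring
  · have h1 := hcU Real.pi
    rw [Real.cos_pi] at h1
    norm_num at h1
    rw [h1]
    have h2 := hVp (Real.pi / 2)
    have h3 : Real.pi - Real.pi / 2 = Real.pi / 2 := by ring
    rw [h3] at h2
    have h4 : V (Real.pi / 2) = 0 := by linear_combination h2 / 2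
    have h5 := hrel (Real.pi / 2)
    rw [h4] at h5
    simp only [hU]
    linear_combination h5
  · intro x hx y hy hxy
    have ex := hτ x hx
    have ey := hτ y hy
    set t := Real.arccos (1 - 2 * x)
    set t' := Real.arccos (1 - 2 * y)
    rw [← ex, ← ey, hcU, hcU] at hxy
    have key := key2 _ _ hxy
    have e1 : 2 * (t / 2) = t := by ring
    have e2 : 2 * (t' / 2) = t' := by ring
    rw [e1, e2] at key
    rw [← ex, ← ey, key]
  · intro x hx h0
    have ex := hτ x hx
    set t := Real.arccos (1 - 2 * x) / 2 with ht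
    have e1 : 2 * t = Real.arccos (1 - 2 * x) := by rw [ht]; ring
    rw [← e1] at ex
    have hcd : ∀ y, HasDerivAt c (deriv c y) y := fun y => (hcs.differentiable (by simp) y).hasDerivAt
    have hsd : ∀ t, HasDerivAt (fun t => Real.sin (2 * t)) (2 * Real.cos (2 * t)) t := by
      intro t
      have h1 : HasDerivAt (fun t : ℝ => 2 * t) 2 t := by
        simpa using (hasDerivAt_id t).const_mul 2
      have h2 := h1.sin
      rwa [mul_comm] at h2
    have hyd : ∀ t, HasDerivAt (fun t => (1 - Real.cos (2 * t)) / 2) (Real.sin (2 * t)) t := by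
      intro t
      have h1 : HasDerivAt (fun t : ℝ => 2 * t) 2 t := by
        simpa using (hasDerivAt_id t).const_mul 2
      have := (h1.cos.const_sub 1).div_const 2
      refine this.congr_deriv ?_
      ring
    have hUe1 : ∀ t, deriv U t = (Real.sin (2 * t)) • deriv c ((1 - Real.cos (2 * t)) / 2) := by
      intro t
      have d1 := (hcd ((1 - Real.cos (2 * t)) / 2)).scomp t (hyd t)
      have d2 : (c ∘ fun t => (1 - Real.cos (2 * t)) / 2) = U := funext hcU2
      rw [d2] at d1
      exact d1.deriv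
    have hU0 : deriv U t = 0 := by rw [hUe1, ex, h0, smul_zero]
    have hWW : W t * deriv W t = 0 := by
      rw [hU1] at hU0
      linear_combination hU0 / 2
    have hVV : V t * deriv V t = 0 := by
      linear_combination hrel1 t - hWW
    have hsec : Real.sin (2 * t) = 0 → deriv W t * deriv W t + W t * deriv (deriv W) t = 0 := by
      intro hsin
      have hc1s : ContDiff ℝ ∞ (deriv c) := ((contDiff_infty_iff_deriv (𝕜 := ℝ)).1 hcs).2
      have hc1d : HasDerivAt (deriv c) (deriv (deriv c) ((1 - Real.cos (2 * t)) / 2))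
        ((1 - Real.cos (2 * t)) / 2) := (hc1s.differentiable (by simp) _).hasDerivAt
      have d1 := hc1d.scomp t (hyd t)
      have d2 := (hsd t).smul d1
      have d3 : deriv U = fun t => (Real.sin (2 * t)) • deriv c ((1 - Real.cos (2 * t)) / 2) :=
        funext hUe1
      have d4 : HasDerivAt (deriv U) 0 t := by
        rw [d3]
        refine HasDerivAt.congr_deriv d2 ?_
        simp only [Function.comp_apply]
        rw [ex, h0, hsin]
        simp
      have d5 := (hU2 t).unique d4
      linear_combination d5 / 2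
    by_cases hW0 : W t = 0
    · have h1 := hγ.sin_zero h hC hW0
      have h2 := hsec (by rw [Real.sin_two_mul, h1]; ring)
      rw [hW0, zero_mul, add_zero] at h2
      have h3 := mul_self_eq_zero.1 h2
      have h4 : V t ≠ 0 := by
        intro h5
        have h6 := hrel t
        rw [hW0, h5] at h6
        norm_num at h6
      exact hγ.deriv_wt h hC ((mul_eq_zero.1 hVV).resolve_left h4) h3
    · have h3 := (mul_eq_zero.1 hWW).resolve_left hW0
      by_cases hV0 : V t = 0
      · have h1 := cos_zero' hγ hγ2 h hC hV0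
        have h2 := hsec (by rw [Real.sin_two_mul, h1]; ring)
        have h5 := hrel2 t
        rw [h2, hV0, zero_mul, add_zero, add_zero] at h5
        exact hγ.deriv_wt h hC (mul_self_eq_zero.1 h5) h3
      · exact hγ.deriv_wt h hC ((mul_eq_zero.1 hVV).resolve_left hV0) h3
  · intro z hz
    obtain ⟨t, rfl⟩ := hγ.surj z hz
    exact ⟨(1 - Real.cos (2 * t)) / 2, ⟨by linarith [Real.cos_le_one (2 * t)], by
      linarith [Real.neg_one_le_cos (2 * t)]⟩, hcU2 t⟩
  · intro τ hτ'
    refine ⟨γ (Real.arccos (1 - 2 * τ) / 2), hγ.mem _, ?_⟩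
    change U (Real.arccos (1 - 2 * τ) / 2) = c τ
    rw [← hcU, hτ τ hτ']

end Vale.Agent.P220.R2.H57J
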