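import Vale.Agent.P220.R2.H57J.Iso

/-!
# The zero section is Hamiltonian isotopic to the Lagrangian over a quarter arc
-/

open Set Filter Topology
open scoped ContDiff

set_option linter.unusedSectionVars false

namespace Vale.Agent.P220.R2.H57J

open H57 H180

variable {E : Type} [NormedAddCommGroup E] [InnerProductSpace ℝ E] [FiniteDimensional ℝ E]
  {F : Submodule ℝ E} {G : ℝ → ℝ} {c : ℝ → ℂ} {C b₁ b₂ : ℝ × ℝ → ℂ}

/-- injectivity -/
theorem iso_inj (hF : IsFamQ c C b₁ b₂) (hG : ∀ t, 1 / 4 ≤ t → G t = (√t)⁻¹) (s : ℝ) {z z' : E × E}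
    (hz : ‖z.1‖ = 1) (hz' : ‖z'.1‖ = 1) (h : iso F G b₁ b₂ (s, z) = iso F G b₁ b₂ (s, z')) :
    z.1 = z'.1 := by
  have p := hF.pt (F := F) s hz
  have p' := hF.pt (F := F) s hz'
  have hy : xy F b₁ b₂ (s, z) = xy F b₁ b₂ (s, z') := congrArg Prod.snd h
  have ha : xa F b₁ b₂ (s, z) = xa F b₁ b₂ (s, z') := by
    rw [p.inv hG, p'.inv hG, h]
  have fa := congrArg (pf F) ha
  have fy := congrArg (pf F) hy
  have ga := congrArg (pg F) ha
  have gy := congrArg (pg F) hy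
  simp only [xa, xy, pf_comb, pg_comb] at fa fy ga gy
  have hτ := tau_mem (F := F) hz
  have hτ' := tau_mem (F := F) hz'
  have ff := pf_sq (F := F) hz
  have ff' := pf_sq (F := F) hz'
  have h1 := congrArg (fun x => (inner ℝ x x : ℝ)) fa
  have h2 := congrArg (fun x => (inner ℝ x x : ℝ)) fy
  have h3 : (inner ℝ ((b₁ (s, tau F z.1)).re • pf F z.1) ((b₁ (s, tau F z.1)).im • pf F z.1) : ℝ) =
      inner ℝ ((b₁ (s, tau F z'.1)).re • pf F z'.1) ((b₁ (s, tau F z'.1)).im • pf F z'.1) := by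
    rw [fa, fy]
  simp only [inner_smul_left, inner_smul_right, ff, ff', conj_trivial] at h1 h2 h3
  have r1 := hF.rel1 s _ hτ
  have r1' := hF.rel1 s _ hτ'
  have hC : C (s, tau F z.1) = C (s, tau F z'.1) := by
    have h4 : (1 - (tau F z.1 : ℂ)) * b₁ (s, tau F z.1) ^ 2 =
        (1 - (tau F z'.1 : ℂ)) * b₁ (s, tau F z'.1) ^ 2 := by
      apply Complex.ext
      · simp only [sq, Complex.mul_re, Complex.mul_im, Complex.ofReal_re,
          Complex.ofReal_im, Complex.sub_re, Complex.sub_im, Complex.one_re, Complex.one_im]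
        linear_combination h1 - h2
      · simp only [sq, Complex.mul_re, Complex.mul_im, Complex.ofReal_re,
          Complex.ofReal_im, Complex.sub_re, Complex.sub_im, Complex.one_re, Complex.one_im]
        linear_combination 2 * h3
    rw [r1, r1'] at h4
    linear_combination -h4
  have hττ := hF.inj s _ hτ _ hτ' hC
  rw [← hττ] at fa fy ga gy
  have n1 := hF.bne1 s _ hτ
  have n2 := hF.bne2 s _ hτ
  have k1 : pf F z.1 = pf F z'.1 := by
    by_cases h4 : (b₁ (s, tau F z.1)).re = 0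
    · have h5 : (b₁ (s, tau F z.1)).im ≠ 0 := fun h5 => n1 (Complex.ext h4 h5)
      exact smul_right_injective E h5 fy
    · exact smul_right_injective E h4 fa
  have k2 : pg F z.1 = pg F z'.1 := by
    by_cases h4 : (b₂ (s, tau F z.1)).re = 0
    · have h5 : (b₂ (s, tau F z.1)).im ≠ 0 := fun h5 => n2 (Complex.ext h4 h5)
      exact smul_right_injective E h5 gy
    · exact smul_right_injective E h4 ga
  rw [← pf_add_pg F z.1, ← pf_add_pg F z'.1, k1, k2]

/-- the derivative of the relation -/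
theorem rel1_deriv (hF : IsFamQ c C b₁ b₂) (s : ℝ) {τ : ℝ} (hτ : τ ∈ Ioo (0 : ℝ) 1) :
    deriv (fun t => C (s, t)) τ = b₁ (s, τ) ^ 2 -
      2 * (1 - (τ : ℂ)) * b₁ (s, τ) * fderiv ℝ b₁ (s, τ) (0, 1) := by
  have hC : HasDerivAt (fun t => C (s, t)) (deriv (fun t => C (s, t)) τ) τ := by
    have h1 : ContDiff ℝ ∞ fun t : ℝ => C (s, t) := hF.hC.comp (contDiff_const.prodMk contDiff_id)
    exact (h1.differentiable (by simp) τ).hasDerivAt
  have hb : HasDerivAt (fun t => b₁ (s, t)) (fderiv ℝ b₁ (s, τ) (0, 1)) τ := by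
    have h1 : HasFDerivAt b₁ (fderiv ℝ b₁ (s, τ)) (s, τ) :=
      (hF.hb1.differentiable (by simp) _).hasFDerivAt
    exact h1.comp_hasDerivAt τ ((hasDerivAt_const τ s).prodMk (hasDerivAt_id τ))
  have hτd : HasDerivAt (fun t : ℝ => 1 - (t : ℂ)) (-1) τ := by
    have := ((hasDerivAt_id τ).ofReal_comp).const_sub 1
    simpa using this
  have h2 := hτd.mul (hb.pow 2)
  have h3 := hC.const_sub 1
  have h4 : (fun t : ℝ => (1 - (t : ℂ)) * b₁ (s, t) ^ 2) =ᶠ[𝓝 τ] fun t => 1 - C (s, t) := by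
    filter_upwards [Icc_mem_nhds hτ.1 hτ.2] with t ht
    exact hF.rel1 s t ht
  have h5 := h3.unique (h2.congr_of_eventuallyEq h4.symm)
  have e1 : ((fun t => b₁ (s, t)) ^ 2) τ = b₁ (s, τ) ^ 2 := rfl
  simp only [Nat.cast_ofNat, Nat.add_one_sub_one, pow_one, neg_mul, one_mul, e1] at h5
  linear_combination -h5

/-- immersivity -/
theorem iso_imm (hF : IsFamQ c C b₁ b₂) (hGs : ContDiff ℝ ∞ G)
    (hG : ∀ t, 1 / 4 ≤ t → G t = (√t)⁻¹) (s : ℝ) {z v : E × E}
    (hz : ‖z.1‖ = 1) (hv1 : inner ℝ z.1 v.1 = (0 : ℝ))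
    (h : fderiv ℝ (iso F G b₁ b₂) (s, z) (0, v) = 0) : v.1 = 0 := by
  have p := hF.pt (F := F) s hz
  have hb1 := hF.hb1
  have hb2 := hF.hb2
  have hy : fderiv ℝ (xy F b₁ b₂) (s, z) (0, v) = 0 := by
    rw [← diso_snd hGs hb1 hb2, h]
    rfl
  obtain ⟨k, hk, hk2⟩ := diso_fst (F := F) hGs hb1 hb2 s z v
  have hGne : G (1 + ‖xy F b₁ b₂ (s, z)‖ ^ 2) ≠ 0 := by
    rw [p.Gval hG]
    exact inv_ne_zero (Real.sqrt_pos.2 (by positivity)).ne'
  have ha : fderiv ℝ (xa F b₁ b₂) (s, z) (0, v) = 0 := by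
    rw [h, hk hy, zero_smul, zero_add] at hk2
    exact (smul_eq_zero.1 hk2.symm).resolve_left hGne
  rw [dxa hb1 hb2] at ha
  rw [dxy hb1 hb2] at hy
  have hτ := tau_mem (F := F) hz
  have ff := pf_sq (F := F) hz
  have gg := pg_sq (F := F) (q := z.1)
  have hfv : (inner ℝ (pf F z.1) (pf F v.1) : ℝ) = -(dt F z.1 v.1) / 2 := by
    have h1 := inner_split (F := F) z.1 v.1
    rw [hv1] at h1
    unfold dt
    linarith
  have hgv : (inner ℝ (pg F z.1) (pg F v.1) : ℝ) = dt F z.1 v.1 / 2 := by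
    unfold dt
    ring
  have n1 := hF.bne1 s _ hτ
  have n2 := hF.bne2 s _ hτ
  set τ := tau F z.1 with hτd
  set B := b₁ (s, τ) with hB
  set B' := b₂ (s, τ) with hB'
  set dB := fderiv ℝ b₁ (s, τ) (0, 1) with hdB
  set dB' := fderiv ℝ b₂ (s, τ) (0, 1) with hdB'
  set d := dt F z.1 v.1 with hd
  have a1 := congrArg (fun x => (inner ℝ (pf F z.1) x : ℝ)) ha
  have a2 := congrArg (fun x => (inner ℝ (pf F z.1) x : ℝ)) hy
  have a3 := congrArg (fun x => (inner ℝ (pg F z.1) x : ℝ)) ha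
  have a4 := congrArg (fun x => (inner ℝ (pg F z.1) x : ℝ)) hy
  simp only [inner_add_right, inner_smul_right, ff, gg, hfv, hgv, fg, gf, inner_zero_right,
    mul_zero, add_zero, zero_add] at a1 a2 a3 a4
  have hd0 : d = 0 := by
    by_contra hne
    have hne' : (d : ℂ) ≠ 0 := by exact_mod_cast hne
    have e1 : 2 * (1 - (τ : ℂ)) * dB = B := by
      refine mul_left_cancel₀ hne' ?_
      apply Complex.ext
      · simp only [Complex.mul_re, Complex.mul_im, Complex.ofReal_re, Complex.ofReal_im,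
          Complex.sub_re, Complex.sub_im, Complex.one_re, Complex.one_im, Complex.re_ofNat,
          Complex.im_ofNat]
        linear_combination 2 * a1
      · simp only [Complex.mul_re, Complex.mul_im, Complex.ofReal_re, Complex.ofReal_im,
          Complex.sub_re, Complex.sub_im, Complex.one_re, Complex.one_im, Complex.re_ofNat,
          Complex.im_ofNat]
        linear_combination 2 * a2
    have e2 : 2 * (τ : ℂ) * dB' = -B' := by
      refine mul_left_cancel₀ hne' ?_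
      apply Complex.ext
      · simp only [Complex.mul_re, Complex.mul_im, Complex.ofReal_re, Complex.ofReal_im,
          Complex.neg_re, Complex.neg_im, Complex.re_ofNat, Complex.im_ofNat]
        linear_combination 2 * a3
      · simp only [Complex.mul_re, Complex.mul_im, Complex.ofReal_re, Complex.ofReal_im,
          Complex.neg_re, Complex.neg_im, Complex.re_ofNat, Complex.im_ofNat]
        linear_combination 2 * a4
    rcases hτ.1.eq_or_lt with t0 | t0
    · rw [← t0] at e2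
      apply n2
      simpa using e2.symm
    rcases hτ.2.eq_or_lt with t1 | t1
    · rw [t1] at e1
      apply n1
      simpa using e1.symm
    · have h1 := rel1_deriv hF s ⟨t0, t1⟩
      refine hF.imm s τ hτ ?_
      rw [h1]
      linear_combination (-B) * e1
  rw [hd0] at ha hy
  simp only [zero_mul, zero_smul, add_zero] at ha hy
  have fa := congrArg (pf F) ha
  have fy := congrArg (pf F) hy
  have ga := congrArg (pg F) ha
  have gy := congrArg (pg F) hy
  simp only [pf_comb, pg_comb, map_zero] at fa fy ga gy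
  have k1 : pf F v.1 = 0 := by
    rcases smul_eq_zero.1 fa with h3 | h3
    · rcases smul_eq_zero.1 fy with h4 | h4
      · exact absurd (Complex.ext h3 h4) n1
      · exact h4
    · exact h3
  have k2 : pg F v.1 = 0 := by
    rcases smul_eq_zero.1 ga with h3 | h3
    · rcases smul_eq_zero.1 gy with h4 | h4
      · exact absurd (Complex.ext h3 h4) n2
      · exact h4
    · exact h3
  rw [← pf_add_pg F v.1, k1, k2, add_zero]

/-- exactness -/
theorem iso_exact (hF : IsFamQ c C b₁ b₂) (hGs : ContDiff ℝ ∞ G) (s : ℝ) {z v : E × E}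
    (hz : ‖z.1‖ = 1) (hv1 : inner ℝ z.1 v.1 = (0 : ℝ)) :
    fderiv ℝ (prim F G b₁ b₂) (s, z) (0, v) =
      inner ℝ (iso F G b₁ b₂ (s, z)).2 (fderiv ℝ (iso F G b₁ b₂) (s, z) (0, v)).1 := by
  have p := hF.pt (F := F) s hz
  have hb1 := hF.hb1
  have hb2 := hF.hb2
  obtain ⟨k, -, hk2⟩ := diso_fst (F := F) hGs hb1 hb2 s z v
  have hay := p.ay
  rw [real_inner_comm] at hay
  rw [dprim hGs hb1 hb2, hk2, inner_add_right, inner_smul_right, inner_smul_right]
  have h0 : (iso F G b₁ b₂ (s, z)).2 = xy F b₁ b₂ (s, z) := rfl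
  rw [h0, hay, mul_zero, zero_add, dxa hb1 hb2]
  have ff := pf_sq (F := F) hz
  have gg := pg_sq (F := F) (q := z.1)
  have hfv : (inner ℝ (pf F z.1) (pf F v.1) : ℝ) = -(dt F z.1 v.1) / 2 := by
    have h1 := inner_split (F := F) z.1 v.1
    rw [hv1] at h1
    unfold dt
    linarith
  have hgv : (inner ℝ (pg F z.1) (pg F v.1) : ℝ) = dt F z.1 v.1 / 2 := by
    unfold dt
    ring
  rw [p.y2]
  have hy : xy F b₁ b₂ (s, z) = (b₁ (s, tau F z.1)).im • pf F z.1 +
    (b₂ (s, tau F z.1)).im • pg F z.1 := rfl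
  rw [hy]
  simp only [inner_add_left, inner_add_right, inner_smul_left, inner_smul_right, ff, gg, hfv, hgv,
    fg, gf, dens, conj_trivial]
  ring

/-- a unit vector of a nonzero subspace of which a given vector is a multiple -/
theorem exists_dir {K : Submodule ℝ E} {x₀ : E} (hx₀ : ‖x₀‖ = 1) (hK : x₀ ∈ K) {w : E}
    (hw : w ∈ K) : ∃ x ∈ K, ‖x‖ = 1 ∧ ∃ k : ℝ, w = k • x := by
  by_cases h2 : w = 0
  · exact ⟨x₀, hK, hx₀, 0, by rw [h2, zero_smul]⟩
  · refine ⟨‖w‖⁻¹ • w, K.smul_mem _ hw, ?_, ‖w‖, ?_⟩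
    · rw [norm_smul, norm_inv, norm_norm]
      exact inv_mul_cancel₀ (norm_ne_zero_iff.2 h2)
    · rw [smul_smul, mul_inv_cancel₀ (norm_ne_zero_iff.2 h2), one_smul]

/-- **The zero section is Hamiltonian isotopic to the Lagrangian over a quarter arc.** -/
theorem ham_of_arcQ {x₀ y₀ : E} (hx₀ : ‖x₀‖ = 1) (hx₀F : x₀ ∈ F) (hy₀ : ‖y₀‖ = 1) (hy₀F : y₀ ∈ Fᗮ)
    (hc : IsArcQ c) {L : Set (E × E)}
    (hL : ∀ z, z ∈ L ↔ ‖z.1‖ = 1 ∧ inner ℝ z.1 z.2 = (0 : ℝ) ∧
      ∃ x ∈ F, ∃ y ∈ Fᗮ, ‖x‖ = 1 ∧ ‖y‖ = 1 ∧ InPl x y z.1 ∧ InPl x y z.2 ∧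
      ∃ τ ∈ Icc (0 : ℝ) 1, c τ = wt y z ^ 2) : HamIsotopicToZero (Sph E) L := by
  obtain ⟨C, b₁, b₂, hF⟩ := hc.exists_fam
  obtain ⟨G, hG, hG1⟩ := exists_invsqrt
  obtain ⟨UQ, r, hr⟩ := exists_sph_ret (E := E)
  obtain ⟨UK, ρ, hρ, hTn⟩ := exists_Zs_ret (E := E)
  have hb1 := hF.hb1
  have hb2 := hF.hb2
  have cQ : IsCompact (Sph E) := isCompact_sphere _ _
  have cK : IsCompact (Zs E) := by
    have : Zs E = Sph E ×ˢ {0} := rfl
    rw [this]
    exact cQ.prod isCompact_singleton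
  have hpt : ∀ s, ∀ z ∈ Zs E, Pt F b₁ b₂ s z := fun s z hz => hF.pt s (mem_Sph.1 hz.1)
  obtain ⟨H, φ, hH, hφ, hφι⟩ := H481.ham_ext hr cQ hρ cK (iso_smooth (F := F) hG hb1 hb2)
    (fun s z hz => cot_sph.2 ⟨(hpt s z hz).norm hG1, (hpt s z hz).orth⟩)
    (fun s z hz z' hz' h => Prod.ext (iso_inj hF hG1 s (mem_Sph.1 hz.1) (mem_Sph.1 hz'.1) h)
      (by rw [hz.2, hz'.2]))
    (fun s z hz v hv h => by
      obtain ⟨hv2, hv1⟩ := hTn z hz v hv
      exact Prod.ext (iso_imm hF hG hG1 s (mem_Sph.1 hz.1) hv1 h) hv2)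
    (prim_smooth (F := F) hG hb1 hb2)
    (fun s z hz v hv => by
      obtain ⟨hv2, hv1⟩ := hTn z hz v hv
      exact iso_exact hF hG s (mem_Sph.1 hz.1) hv1)
  refine ⟨H, φ, hH, hφ, ?_⟩
  -- the end points
  have h0 : ∀ z ∈ Zs E, iso F G b₁ b₂ (0, z) = z := by
    intro z hz
    have hq := mem_Sph.1 hz.1
    have hτ := tau_mem (F := F) hq
    have h10 := hF.b10 _ hτ
    have h20 := hF.b20 _ hτ
    have hy : xy F b₁ b₂ (0, z) = 0 := by
      have : xy F b₁ b₂ (0, z) = (b₁ (0, tau F z.1)).im • pf F z.1 +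
        (b₂ (0, tau F z.1)).im • pg F z.1 := rfl
      rw [this, h10, h20]
      simp
    have ha : xa F b₁ b₂ (0, z) = z.1 := by
      have : xa F b₁ b₂ (0, z) = (b₁ (0, tau F z.1)).re • pf F z.1 +
        (b₂ (0, tau F z.1)).re • pg F z.1 := rfl
      rw [this, h10, h20]
      conv_rhs => rw [← pf_add_pg F z.1]
      simp
    have : iso F G b₁ b₂ (0, z) = (G (1 + ‖xy F b₁ b₂ (0, z)‖ ^ 2) • xa F b₁ b₂ (0, z),
      xy F b₁ b₂ (0, z)) := rfl
    rw [this, hy, ha, hG1 _ (by simp; norm_num)]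
    simp only [norm_zero]
    refine Prod.ext ?_ hz.2.symm
    simp
  have h1 : ∀ z, z ∈ L ↔ ∃ q, ‖q‖ = 1 ∧ iso F G b₁ b₂ (1, (q, 0)) = z := by
    intro z
    rw [hL]
    constructor
    · rintro ⟨hz1, hz2, x, hxF, y, hyF, hx, hy, hp1, hp2, τ, hτ, hcτ⟩
      have ho : Orth x y := ⟨hx, hy, in_fg hxF hyF⟩
      have hT : InT x y z := ⟨hz1, hp1, hp2, hz2⟩
      have hrel := ho.wt_rel hT
      have hsq : 0 < 1 + ‖z.2‖ ^ 2 := by positivity
      have r1 := hF.rel1 1 τ hτ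
      have r2 := hF.rel2 1 τ hτ
      rw [hF.C1] at r1 r2
      -- the two components
      have key : ∀ (t : ℝ) (w b : ℂ), 0 ≤ t → w ^ 2 = t * b ^ 2 →
          ∃ m : ℝ, m ^ 2 = t ∧ w = m * b := by
        intro t w b ht hw
        have hm2 : ((√t : ℝ) : ℂ) ^ 2 = t := by exact_mod_cast Real.sq_sqrt ht
        have h2 : w ^ 2 = ((√t : ℝ) * b) ^ 2 := by rw [hw, mul_pow, hm2]
        rcases sq_eq_sq_iff_eq_or_eq_neg.1 h2 with h3 | h3
        · exact ⟨√t, Real.sq_sqrt ht, h3⟩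
        · refine ⟨-√t, by rw [neg_sq, Real.sq_sqrt ht], ?_⟩
          rw [h3]
          push_cast
          ring
      obtain ⟨m1, hm1, hw1⟩ := key (1 - τ) (wt x z) (b₁ (1, τ)) (by linarith [hτ.2]) (by
        push_cast
        rw [r1]
        linear_combination hrel + hcτ)
      obtain ⟨m2, hm2, hw2⟩ := key τ (wt y z) (b₂ (1, τ)) hτ.1 (by rw [r2, hcτ])
      have e1 := congrArg Complex.re hw1
      have e2 := congrArg Complex.im hw1
      have e3 := congrArg Complex.re hw2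
      have e4 := congrArg Complex.im hw2
      rw [wt_re] at e1 e3
      rw [wt_im] at e2 e4
      simp only [Complex.re_ofReal_mul, Complex.im_ofReal_mul] at e1 e2 e3 e4
      have hqf : pf F (m1 • x + m2 • y) = m1 • x := by
        rw [map_add, map_smul, map_smul, pf_of_mem hxF, pf_of_orth hyF, smul_zero, add_zero]
      have hqg : pg F (m1 • x + m2 • y) = m2 • y := by
        rw [map_add, map_smul, map_smul, pg_of_mem hxF, pg_of_orth hyF, smul_zero, zero_add]
      have htq : tau F (m1 • x + m2 • y) = τ := by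
        unfold tau
        rw [hqg, norm_smul, hy, mul_one, Real.norm_eq_abs, sq_abs, hm2]
      have hqn : ‖m1 • x + m2 • y‖ = 1 := by
        rw [← sq_eq_sq₀ (norm_nonneg _) zero_le_one, ← real_inner_self_eq_norm_sq]
        simp only [inner_add_left, inner_add_right, inner_smul_left, inner_smul_right, ho.vv, ho.ww,
          ho.vw, ho.wv]
        simp
        linear_combination hm1 + hm2
      refine ⟨m1 • x + m2 • y, hqn, ?_⟩
      have p := hF.pt (F := F) 1 (z := (m1 • x + m2 • y, (0 : E))) hqn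
      have hyy : xy F b₁ b₂ (1, (m1 • x + m2 • y, (0 : E))) = z.2 := by
        have : xy F b₁ b₂ (1, (m1 • x + m2 • y, (0 : E))) =
          (b₁ (1, tau F (m1 • x + m2 • y))).im • pf F (m1 • x + m2 • y) +
          (b₂ (1, tau F (m1 • x + m2 • y))).im • pg F (m1 • x + m2 • y) := rfl
        rw [this, htq, hqf, hqg, smul_smul, smul_smul, mul_comm, ← e2, mul_comm, ← e4]
        exact hp2.symm
      have haa : xa F b₁ b₂ (1, (m1 • x + m2 • y, (0 : E))) = √(1 + ‖z.2‖ ^ 2) • z.1 := by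
        have : xa F b₁ b₂ (1, (m1 • x + m2 • y, (0 : E))) =
          (b₁ (1, tau F (m1 • x + m2 • y))).re • pf F (m1 • x + m2 • y) +
          (b₂ (1, tau F (m1 • x + m2 • y))).re • pg F (m1 • x + m2 • y) := rfl
        rw [this, htq, hqf, hqg, smul_smul, smul_smul, mul_comm (b₁ (1, τ)).re m1, ← e1,
          mul_comm (b₂ (1, τ)).re m2, ← e3]
        conv_rhs => rw [hp1]
        rw [smul_add, smul_smul, smul_smul, mul_comm (√(1 + ‖z.2‖ ^ 2)) (inner ℝ x z.1),
          mul_comm (√(1 + ‖z.2‖ ^ 2)) (inner ℝ y z.1)]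
      have : iso F G b₁ b₂ (1, (m1 • x + m2 • y, (0 : E))) =
        (G (1 + ‖xy F b₁ b₂ (1, (m1 • x + m2 • y, (0 : E)))‖ ^ 2) •
        xa F b₁ b₂ (1, (m1 • x + m2 • y, (0 : E))), xy F b₁ b₂ (1, (m1 • x + m2 • y, (0 : E)))) := rfl
      rw [this, p.Gval hG1, hyy, haa, smul_smul, inv_mul_cancel₀ (Real.sqrt_pos.2 hsq).ne', one_smul]
    · rintro ⟨q, hq, rfl⟩
      have p := hF.pt (F := F) 1 (z := (q, (0 : E))) hq
      have hτ := tau_mem (F := F) hq
      obtain ⟨x, hxF, hx, k, hk⟩ := exists_dir hx₀ hx₀F (pf_mem F q)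
      obtain ⟨y, hyF, hy, l, hl⟩ := exists_dir hy₀ hy₀F (pg_mem F q)
      have ho : Orth x y := ⟨hx, hy, in_fg hxF hyF⟩
      have e1 : (iso F G b₁ b₂ (1, (q, (0 : E)))).1 =
          G (1 + ‖xy F b₁ b₂ (1, (q, (0 : E)))‖ ^ 2) •
          ((b₁ (1, tau F q)).re • pf F q + (b₂ (1, tau F q)).re • pg F q) := rfl
      have e2 : (iso F G b₁ b₂ (1, (q, (0 : E)))).2 =
          (b₁ (1, tau F q)).im • pf F q + (b₂ (1, tau F q)).im • pg F q := rfl
      have hpl : ∀ a b : ℝ, InPl x y (a • x + b • y) := fun a b =>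
        InPl.smul hx hy (in_fg hxF hyF) a b rfl
      refine ⟨p.norm hG1, p.orth, x, hxF, y, hyF, hx, hy, ?_, ?_, tau F q, hτ, ?_⟩
      · rw [e1, hk, hl, smul_add, smul_smul, smul_smul, smul_smul, smul_smul]
        exact hpl _ _
      · rw [e2, hk, hl, smul_smul, smul_smul]
        exact hpl _ _
      · have h3 : (wt y (iso F G b₁ b₂ (1, (q, (0 : E))))) = (l : ℂ) * b₂ (1, tau F q) := by
          apply Complex.ext
          · rw [wt_re, mul_comm, ← inner_smul_right, ← p.inv hG1]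
            have : xa F b₁ b₂ (1, (q, (0 : E))) =
              (b₁ (1, tau F q)).re • pf F q + (b₂ (1, tau F q)).re • pg F q := rfl
            rw [this, hk, hl]
            simp only [inner_add_right, inner_smul_right, ho.ww, ho.wv, Complex.re_ofReal_mul]
            ring
          · rw [wt_im, e2, hk, hl]
            simp only [inner_add_right, inner_smul_right, ho.ww, ho.wv, Complex.im_ofReal_mul]
            ring
        have hll : l ^ 2 = tau F q := by
          unfold tau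
          rw [hl, norm_smul, hy, mul_one, Real.norm_eq_abs, sq_abs]
        have hll' : (l : ℂ) ^ 2 = tau F q := by exact_mod_cast hll
        rw [h3, mul_pow, hll', hF.rel2 1 _ hτ, hF.C1]
  ext w
  rw [h1]
  constructor
  · rintro ⟨y, hy, rfl⟩
    have hyZ : y ∈ Zs E := hy
    refine ⟨y.1, mem_Sph.1 hyZ.1, ?_⟩
    have h2 := hφι 1 ⟨zero_le_one, le_refl 1⟩ y hyZ
    rw [h0 y hyZ] at h2
    rw [h2]
    congr 2
    exact Prod.ext rfl hyZ.2.symm
  · rintro ⟨q, hq, rfl⟩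
    have hyZ : ((q, 0) : E × E) ∈ Zs E := ⟨mem_Sph.2 hq, rfl⟩
    refine ⟨(q, 0), hyZ, ?_⟩
    have h2 := hφι 1 ⟨zero_le_one, le_refl 1⟩ (q, 0) hyZ
    rw [h0 _ hyZ] at h2
    exact h2

end Vale.Agent.P220.R2.H57J
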