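import Vale.Agent.P220.R2.H180.Arc
import Vale.Agent.P220.R2.H57J.Fam

/-!
# The exact isotopy of the zero section given by a family of arcs, two factors
-/

open Set Filter Topology
open scoped ContDiff

set_option linter.unusedSectionVars false

namespace Vale.Agent.P220.R2.H57J

open H57 H180

variable {E : Type} [NormedAddCommGroup E] [InnerProductSpace ℝ E] [FiniteDimensional ℝ E]

/-- the component in `F` -/
noncomputable def pf (F : Submodule ℝ E) : E →L[ℝ] E := F.starProjection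

/-- the component orthogonal to `F` -/
noncomputable def pg (F : Submodule ℝ E) : E →L[ℝ] E := ContinuousLinearMap.id ℝ E - F.starProjection

section

variable (F : Submodule ℝ E)

theorem pf_mem (x : E) : pf F x ∈ F := F.starProjection_apply_mem x

theorem pg_mem (x : E) : pg F x ∈ Fᗮ := Submodule.sub_starProjection_mem_orthogonal x

theorem pf_add_pg (x : E) : pf F x + pg F x = x := by
  simp [pf, pg]

variable {F}

theorem pf_of_mem {x : E} (hx : x ∈ F) : pf F x = x := Submodule.starProjection_eq_self_iff.2 hx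

theorem pg_of_mem {x : E} (hx : x ∈ F) : pg F x = 0 := by
  have h1 := pf_add_pg F x
  rw [pf_of_mem hx] at h1
  simpa using h1

theorem pf_of_orth {x : E} (hx : x ∈ Fᗮ) : pf F x = 0 :=
  (Submodule.starProjection_apply_eq_zero_iff F).2 hx

theorem pg_of_orth {x : E} (hx : x ∈ Fᗮ) : pg F x = x := by
  have h1 := pf_add_pg F x
  rw [pf_of_orth hx, zero_add] at h1
  exact h1

theorem in_fg {x y : E} (hx : x ∈ F) (hy : y ∈ Fᗮ) : inner ℝ x y = (0 : ℝ) :=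
  Submodule.inner_right_of_mem_orthogonal hx hy

theorem in_gf {x y : E} (hx : x ∈ F) (hy : y ∈ Fᗮ) : inner ℝ y x = (0 : ℝ) :=
  Submodule.inner_left_of_mem_orthogonal hx hy

theorem fg (x y : E) : inner ℝ (pf F x) (pg F y) = (0 : ℝ) := in_fg (pf_mem F x) (pg_mem F y)

theorem gf (x y : E) : inner ℝ (pg F x) (pf F y) = (0 : ℝ) := in_gf (pf_mem F y) (pg_mem F x)

theorem inner_split (x y : E) :
    (inner ℝ x y : ℝ) = inner ℝ (pf F x) (pf F y) + inner ℝ (pg F x) (pg F y) := by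
  conv_lhs => rw [← pf_add_pg F x, ← pf_add_pg F y]
  rw [inner_add_left, inner_add_right, inner_add_right, fg, gf]
  ring

end

/-- the height -/
noncomputable def tau (F : Submodule ℝ E) (x : E) : ℝ := ‖pg F x‖ ^ 2

/-- real part -/
noncomputable def xa (F : Submodule ℝ E) (b₁ b₂ : ℝ × ℝ → ℂ) (x : ℝ × (E × E)) : E :=
  (b₁ (x.1, tau F x.2.1)).re • pf F x.2.1 + (b₂ (x.1, tau F x.2.1)).re • pg F x.2.1

/-- imaginary part -/
noncomputable def xy (F : Submodule ℝ E) (b₁ b₂ : ℝ × ℝ → ℂ) (x : ℝ × (E × E)) : E :=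
  (b₁ (x.1, tau F x.2.1)).im • pf F x.2.1 + (b₂ (x.1, tau F x.2.1)).im • pg F x.2.1

/-- the isotopy -/
noncomputable def iso (F : Submodule ℝ E) (G : ℝ → ℝ) (b₁ b₂ : ℝ × ℝ → ℂ) (x : ℝ × (E × E)) : E × E :=
  (G (1 + ‖xy F b₁ b₂ x‖ ^ 2) • xa F b₁ b₂ x, xy F b₁ b₂ x)

/-- the density of the primitive -/
noncomputable def dens (G : ℝ → ℝ) (b₁ b₂ : ℝ × ℝ → ℂ) (x : ℝ × ℝ) : ℝ :=
  ((1 - x.2) * ((b₁ x).im * (fderiv ℝ b₁ x (0, 1)).re) + x.2 * ((b₂ x).im *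
    (fderiv ℝ b₂ x (0, 1)).re) + ((b₂ x).re * (b₂ x).im - (b₁ x).re * (b₁ x).im) / 2) *
    G (1 + ((1 - x.2) * (b₁ x).im ^ 2 + x.2 * (b₂ x).im ^ 2))

/-- the primitive -/
noncomputable def prim (F : Submodule ℝ E) (G : ℝ → ℝ) (b₁ b₂ : ℝ × ℝ → ℂ) (x : ℝ × (E × E)) : ℝ :=
  ∫ r in (0 : ℝ)..(tau F x.2.1), dens G b₁ b₂ (x.1, r)

section

variable {F : Submodule ℝ E} {G : ℝ → ℝ} {c : ℝ → ℂ} {C b₁ b₂ : ℝ × ℝ → ℂ}

theorem tau_mem {q : E} (hq : ‖q‖ = 1) : tau F q ∈ Icc (0 : ℝ) 1 := by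
  have h1 := inner_split (F := F) q q
  rw [real_inner_self_eq_norm_sq, real_inner_self_eq_norm_sq, real_inner_self_eq_norm_sq, hq] at h1
  unfold tau
  constructor
  · positivity
  · nlinarith [sq_nonneg ‖pf F q‖]

theorem pf_sq {q : E} (hq : ‖q‖ = 1) : inner ℝ (pf F q) (pf F q) = 1 - tau F q := by
  have h1 := inner_split (F := F) q q
  rw [real_inner_self_eq_norm_sq, hq, real_inner_self_eq_norm_sq (pg F q)] at h1
  unfold tau
  linarith

theorem pg_sq {q : E} : inner ℝ (pg F q) (pg F q) = tau F q := real_inner_self_eq_norm_sq _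

theorem tau_smooth (F : Submodule ℝ E) : ContDiff ℝ ∞ (tau F) :=
  (contDiff_norm_sq ℝ).comp (pg F).contDiff

theorem st_smooth (F : Submodule ℝ E) :
    ContDiff ℝ ∞ fun x : ℝ × (E × E) => ((x.1, tau F x.2.1) : ℝ × ℝ) :=
  contDiff_fst.prodMk ((tau_smooth F).comp (contDiff_fst.comp contDiff_snd))

theorem xa_smooth (h1 : ContDiff ℝ ∞ b₁) (h2 : ContDiff ℝ ∞ b₂) : ContDiff ℝ ∞ (xa F b₁ b₂) :=
  ((Complex.reCLM.contDiff.comp (h1.comp (st_smooth F))).smul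
      ((pf F).contDiff.comp (contDiff_fst.comp contDiff_snd))).add
    ((Complex.reCLM.contDiff.comp (h2.comp (st_smooth F))).smul
      ((pg F).contDiff.comp (contDiff_fst.comp contDiff_snd)))

theorem xy_smooth (h1 : ContDiff ℝ ∞ b₁) (h2 : ContDiff ℝ ∞ b₂) : ContDiff ℝ ∞ (xy F b₁ b₂) :=
  ((Complex.imCLM.contDiff.comp (h1.comp (st_smooth F))).smul
      ((pf F).contDiff.comp (contDiff_fst.comp contDiff_snd))).add
    ((Complex.imCLM.contDiff.comp (h2.comp (st_smooth F))).smul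
      ((pg F).contDiff.comp (contDiff_fst.comp contDiff_snd)))

theorem iso_smooth (hG : ContDiff ℝ ∞ G) (h1 : ContDiff ℝ ∞ b₁) (h2 : ContDiff ℝ ∞ b₂) :
    ContDiff ℝ ∞ (iso F G b₁ b₂) :=
  ((hG.comp (contDiff_const.add ((contDiff_norm_sq ℝ).comp (xy_smooth h1 h2)))).smul
    (xa_smooth h1 h2)).prodMk (xy_smooth h1 h2)

theorem dens_smooth (hG : ContDiff ℝ ∞ G) (h1 : ContDiff ℝ ∞ b₁) (h2 : ContDiff ℝ ∞ b₂) :
    ContDiff ℝ ∞ (dens G b₁ b₂) := by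
  have c1 : ContDiff ℝ ∞ fun x => (b₁ x).im := Complex.imCLM.contDiff.comp h1
  have c2 : ContDiff ℝ ∞ fun x => (b₂ x).im := Complex.imCLM.contDiff.comp h2
  have c3 : ContDiff ℝ ∞ fun x => (b₁ x).re := Complex.reCLM.contDiff.comp h1
  have c3' : ContDiff ℝ ∞ fun x => (b₂ x).re := Complex.reCLM.contDiff.comp h2
  have c4 : ContDiff ℝ ∞ fun x => (fderiv ℝ b₁ x (0, 1)).re := Complex.reCLM.contDiff.comp
    ((h1.fderiv_right (m := ∞) (by simp)).clm_apply contDiff_const)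
  have c5 : ContDiff ℝ ∞ fun x => (fderiv ℝ b₂ x (0, 1)).re := Complex.reCLM.contDiff.comp
    ((h2.fderiv_right (m := ∞) (by simp)).clm_apply contDiff_const)
  have c6 : ContDiff ℝ ∞ fun x : ℝ × ℝ => 1 - x.2 := contDiff_const.sub contDiff_snd
  have c7 : ContDiff ℝ ∞ fun x : ℝ × ℝ => x.2 := contDiff_snd
  exact (((c6.mul (c1.mul c4)).add (c7.mul (c2.mul c5))).add
    (((c3'.mul c2).sub (c3.mul c1)).div_const 2)).mul
    (hG.comp (contDiff_const.add ((c6.mul (c1.pow 2)).add (c7.mul (c2.pow 2)))))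

theorem prim_smooth (hG : ContDiff ℝ ∞ G) (h1 : ContDiff ℝ ∞ b₁) (h2 : ContDiff ℝ ∞ b₂) :
    ContDiff ℝ ∞ (prim F G b₁ b₂) :=
  (H64.contDiff_primitive (dens_smooth hG h1 h2)).comp (st_smooth F)

/-- all data on the zero section -/
structure Pt (F : Submodule ℝ E) (b₁ b₂ : ℝ × ℝ → ℂ) (s : ℝ) (z : E × E) : Prop where
  a2 : ‖xa F b₁ b₂ (s, z)‖ ^ 2 = 1 + ‖xy F b₁ b₂ (s, z)‖ ^ 2
  ay : inner ℝ (xa F b₁ b₂ (s, z)) (xy F b₁ b₂ (s, z)) = (0 : ℝ)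
  y2 : ‖xy F b₁ b₂ (s, z)‖ ^ 2 = (1 - tau F z.1) * (b₁ (s, tau F z.1)).im ^ 2 +
    tau F z.1 * (b₂ (s, tau F z.1)).im ^ 2

theorem pf_comb (a b : ℝ) (x y : E) : pf F (a • pf F x + b • pg F y) = a • pf F x := by
  rw [map_add, map_smul, map_smul, pf_of_mem (pf_mem F x), pf_of_orth (pg_mem F y), smul_zero,
    add_zero]

theorem pg_comb (a b : ℝ) (x y : E) : pg F (a • pf F x + b • pg F y) = b • pg F y := by
  rw [map_add, map_smul, map_smul, pg_of_mem (pf_mem F x), pg_of_orth (pg_mem F y), smul_zero,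
    zero_add]

theorem IsFamQ.pt (hF : IsFamQ c C b₁ b₂) (s : ℝ) {z : E × E} (hz : ‖z.1‖ = 1) :
    Pt F b₁ b₂ s z := by
  have hτ := tau_mem (F := F) hz
  have hrel1 := hF.rel1 s _ hτ
  have hrel2 := hF.rel2 s _ hτ
  have hrel : (1 - (tau F z.1 : ℂ)) * b₁ (s, tau F z.1) ^ 2 +
      (tau F z.1 : ℂ) * b₂ (s, tau F z.1) ^ 2 = 1 := by
    linear_combination hrel1 + hrel2
  have ff := pf_sq (F := F) hz
  have gg := pg_sq (F := F) (q := z.1)
  have efg := fg (F := F) z.1 z.1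
  have egf := gf (F := F) z.1 z.1
  set τ := tau F z.1 with hτd
  set B := b₁ (s, τ) with hB
  set B' := b₂ (s, τ) with hB'
  have h1 := congrArg Complex.re hrel
  have h2 := congrArg Complex.im hrel
  simp only [sq, Complex.add_re, Complex.mul_re, Complex.add_im, Complex.mul_im, Complex.ofReal_re,
    Complex.ofReal_im, Complex.sub_re, Complex.sub_im, Complex.one_re, Complex.one_im] at h1 h2
  have ha : xa F b₁ b₂ (s, z) = B.re • pf F z.1 + B'.re • pg F z.1 := rfl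
  have hy : xy F b₁ b₂ (s, z) = B.im • pf F z.1 + B'.im • pg F z.1 := rfl
  have ha2 : ‖xa F b₁ b₂ (s, z)‖ ^ 2 = (1 - τ) * B.re ^ 2 + τ * B'.re ^ 2 := by
    rw [← real_inner_self_eq_norm_sq, ha]
    simp only [inner_add_left, inner_add_right, inner_smul_left, inner_smul_right, ff, gg, efg, egf]
    simp
    ring
  have hy2 : ‖xy F b₁ b₂ (s, z)‖ ^ 2 = (1 - τ) * B.im ^ 2 + τ * B'.im ^ 2 := by
    rw [← real_inner_self_eq_norm_sq, hy]
    simp only [inner_add_left, inner_add_right, inner_smul_left, inner_smul_right, ff, gg, efg, egf]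
    simp
    ring
  refine ⟨?_, ?_, hy2⟩
  · rw [ha2, hy2]
    linear_combination h1
  · rw [ha, hy]
    simp only [inner_add_left, inner_add_right, inner_smul_left, inner_smul_right, ff, gg, efg, egf]
    simp
    linear_combination h2 / 2

theorem Pt.Gval {s : ℝ} {z : E × E} (_ : Pt F b₁ b₂ s z) (hG : ∀ t, 1 / 4 ≤ t → G t = (√t)⁻¹) :
    G (1 + ‖xy F b₁ b₂ (s, z)‖ ^ 2) = (√(1 + ‖xy F b₁ b₂ (s, z)‖ ^ 2))⁻¹ :=
  hG _ (by nlinarith [sq_nonneg ‖xy F b₁ b₂ (s, z)‖])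

theorem Pt.norm {s : ℝ} {z : E × E} (h : Pt F b₁ b₂ s z) (hG : ∀ t, 1 / 4 ≤ t → G t = (√t)⁻¹) :
    ‖(iso F G b₁ b₂ (s, z)).1‖ = 1 := by
  have h0 : 0 < 1 + ‖xy F b₁ b₂ (s, z)‖ ^ 2 := by positivity
  show ‖G (1 + ‖xy F b₁ b₂ (s, z)‖ ^ 2) • xa F b₁ b₂ (s, z)‖ = 1
  rw [h.Gval hG, norm_smul, norm_inv, Real.norm_eq_abs, abs_of_nonneg (Real.sqrt_nonneg _), ← h.a2,
    Real.sqrt_sq (norm_nonneg _)]
  refine inv_mul_cancel₀ ?_
  intro h1
  have := h.a2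
  rw [h1] at this
  nlinarith [sq_nonneg ‖xy F b₁ b₂ (s, z)‖]

theorem Pt.orth {s : ℝ} {z : E × E} (h : Pt F b₁ b₂ s z) :
    inner ℝ (iso F G b₁ b₂ (s, z)).1 (iso F G b₁ b₂ (s, z)).2 = (0 : ℝ) := by
  show inner ℝ (G (1 + ‖xy F b₁ b₂ (s, z)‖ ^ 2) • xa F b₁ b₂ (s, z)) (xy F b₁ b₂ (s, z)) = (0 : ℝ)
  rw [inner_smul_left, h.ay, mul_zero]

theorem Pt.inv {s : ℝ} {z : E × E} (h : Pt F b₁ b₂ s z) (hG : ∀ t, 1 / 4 ≤ t → G t = (√t)⁻¹) :
    xa F b₁ b₂ (s, z) = √(1 + ‖(iso F G b₁ b₂ (s, z)).2‖ ^ 2) • (iso F G b₁ b₂ (s, z)).1 := by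
  have h0 : 0 < 1 + ‖xy F b₁ b₂ (s, z)‖ ^ 2 := by positivity
  show xa F b₁ b₂ (s, z) = √(1 + ‖xy F b₁ b₂ (s, z)‖ ^ 2) • G (1 + ‖xy F b₁ b₂ (s, z)‖ ^ 2) •
    xa F b₁ b₂ (s, z)
  rw [h.Gval hG, smul_smul, mul_inv_cancel₀ (Real.sqrt_pos.2 h0).ne', one_smul]

/-! ### derivatives -/

/-- the derivative of the height -/
noncomputable def dt (F : Submodule ℝ E) (q v : E) : ℝ := 2 * inner ℝ (pg F q) (pg F v)

theorem pf_line (F : Submodule ℝ E) (z v : E × E) :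
    HasDerivAt (fun t : ℝ => pf F (z + t • v).1) (pf F v.1) 0 := by
  have h1 : (fun t : ℝ => pf F (z + t • v).1) = fun t : ℝ => pf F z.1 + t • pf F v.1 := by
    funext t
    rw [Prod.fst_add, Prod.smul_fst, map_add, map_smul]
  rw [h1]
  simpa using ((hasDerivAt_id (0 : ℝ)).smul_const (pf F v.1)).const_add (pf F z.1)

theorem pg_line (F : Submodule ℝ E) (z v : E × E) :
    HasDerivAt (fun t : ℝ => pg F (z + t • v).1) (pg F v.1) 0 := by
  have h1 : (fun t : ℝ => pg F (z + t • v).1) = fun t : ℝ => pg F z.1 + t • pg F v.1 := by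
    funext t
    rw [Prod.fst_add, Prod.smul_fst, map_add, map_smul]
  rw [h1]
  simpa using ((hasDerivAt_id (0 : ℝ)).smul_const (pg F v.1)).const_add (pg F z.1)

theorem tau_line (F : Submodule ℝ E) (z v : E × E) :
    HasDerivAt (fun t : ℝ => tau F (z + t • v).1) (dt F z.1 v.1) 0 := by
  have h1 := (pg_line F z v).norm_sq
  simp only [zero_smul, add_zero] at h1
  exact h1

theorem b_line {b : ℝ × ℝ → ℂ} (hb : ContDiff ℝ ∞ b) (F : Submodule ℝ E) (s : ℝ) (z v : E × E) :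
    HasDerivAt (fun t : ℝ => b (s, tau F (z + t • v).1))
      ((dt F z.1 v.1 : ℝ) • fderiv ℝ b (s, tau F z.1) (0, 1)) 0 := by
  have h1 : HasFDerivAt b (fderiv ℝ b (s, tau F z.1))
      ((fun t : ℝ => ((s, tau F (z + t • v).1) : ℝ × ℝ)) 0) := by
    simp only [zero_smul, add_zero]
    exact (hb.differentiable (by simp) _).hasFDerivAt
  have h2 := h1.comp_hasDerivAt (0 : ℝ) ((hasDerivAt_const (0 : ℝ) s).prodMk (tau_line F z v))
  refine h2.congr_deriv ?_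
  rw [← map_smul]
  simp

theorem dxa (h1 : ContDiff ℝ ∞ b₁) (h2 : ContDiff ℝ ∞ b₂) (s : ℝ) (z v : E × E) :
    fderiv ℝ (xa F b₁ b₂) (s, z) (0, v) =
      ((b₁ (s, tau F z.1)).re • pf F v.1 +
        (dt F z.1 v.1 * (fderiv ℝ b₁ (s, tau F z.1) (0, 1)).re) • pf F z.1) +
      ((b₂ (s, tau F z.1)).re • pg F v.1 +
        (dt F z.1 v.1 * (fderiv ℝ b₂ (s, tau F z.1) (0, 1)).re) • pg F z.1) := by
  have h3 := fderiv_line (xa_smooth (F := F) h1 h2) s z v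
  have h4 : HasDerivAt (fun t : ℝ => (b₁ (s, tau F (z + t • v).1)).re) _ 0 :=
    Complex.reCLM.hasFDerivAt.comp_hasDerivAt (0 : ℝ) (b_line h1 F s z v)
  have h5 : HasDerivAt (fun t : ℝ => (b₂ (s, tau F (z + t • v).1)).re) _ 0 :=
    Complex.reCLM.hasFDerivAt.comp_hasDerivAt (0 : ℝ) (b_line h2 F s z v)
  have h6 := (h4.smul (pf_line F z v)).add (h5.smul (pg_line F z v))
  have h7 := h3.unique h6
  rw [h7]
  simp

theorem dxy (h1 : ContDiff ℝ ∞ b₁) (h2 : ContDiff ℝ ∞ b₂) (s : ℝ) (z v : E × E) :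
    fderiv ℝ (xy F b₁ b₂) (s, z) (0, v) =
      ((b₁ (s, tau F z.1)).im • pf F v.1 +
        (dt F z.1 v.1 * (fderiv ℝ b₁ (s, tau F z.1) (0, 1)).im) • pf F z.1) +
      ((b₂ (s, tau F z.1)).im • pg F v.1 +
        (dt F z.1 v.1 * (fderiv ℝ b₂ (s, tau F z.1) (0, 1)).im) • pg F z.1) := by
  have h3 := fderiv_line (xy_smooth (F := F) h1 h2) s z v
  have h4 : HasDerivAt (fun t : ℝ => (b₁ (s, tau F (z + t • v).1)).im) _ 0 :=
    Complex.imCLM.hasFDerivAt.comp_hasDerivAt (0 : ℝ) (b_line h1 F s z v)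
  have h5 : HasDerivAt (fun t : ℝ => (b₂ (s, tau F (z + t • v).1)).im) _ 0 :=
    Complex.imCLM.hasFDerivAt.comp_hasDerivAt (0 : ℝ) (b_line h2 F s z v)
  have h6 := (h4.smul (pf_line F z v)).add (h5.smul (pg_line F z v))
  have h7 := h3.unique h6
  rw [h7]
  simp

theorem diso_snd (hG : ContDiff ℝ ∞ G) (h1 : ContDiff ℝ ∞ b₁) (h2 : ContDiff ℝ ∞ b₂) (s : ℝ)
    (z v : E × E) :
    (fderiv ℝ (iso F G b₁ b₂) (s, z) (0, v)).2 = fderiv ℝ (xy F b₁ b₂) (s, z) (0, v) := by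
  have h3 := fderiv_line (iso_smooth (F := F) hG h1 h2) s z v
  have h4 : HasDerivAt (fun t : ℝ => (iso F G b₁ b₂ (s, z + t • v)).2) _ 0 :=
    hasFDerivAt_snd.comp_hasDerivAt (0 : ℝ) h3
  exact h4.unique (fderiv_line (xy_smooth (F := F) h1 h2) s z v)

theorem diso_fst (hG : ContDiff ℝ ∞ G) (h1 : ContDiff ℝ ∞ b₁) (h2 : ContDiff ℝ ∞ b₂) (s : ℝ)
    (z v : E × E) : ∃ k : ℝ, (fderiv ℝ (xy F b₁ b₂) (s, z) (0, v) = 0 → k = 0) ∧
    (fderiv ℝ (iso F G b₁ b₂) (s, z) (0, v)).1 = k • xa F b₁ b₂ (s, z) +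
      G (1 + ‖xy F b₁ b₂ (s, z)‖ ^ 2) • fderiv ℝ (xa F b₁ b₂) (s, z) (0, v) := by
  have h3 := fderiv_line (iso_smooth (F := F) hG h1 h2) s z v
  have h4 : HasDerivAt (fun t : ℝ => (iso F G b₁ b₂ (s, z + t • v)).1) _ 0 :=
    hasFDerivAt_fst.comp_hasDerivAt (0 : ℝ) h3
  have hy := fderiv_line (xy_smooth (F := F) h1 h2) s z v
  have ha := fderiv_line (xa_smooth (F := F) h1 h2) s z v
  have h5 := (hy.norm_sq).const_add 1
  have h6 : HasDerivAt G (deriv G (1 + ‖xy F b₁ b₂ (s, z + (0 : ℝ) • v)‖ ^ 2))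
      (1 + ‖xy F b₁ b₂ (s, z + (0 : ℝ) • v)‖ ^ 2) := (hG.differentiable (by simp) _).hasDerivAt
  have h7 := h6.comp (0 : ℝ) h5
  have h8 := h7.smul ha
  have h9 := h4.unique h8
  refine ⟨deriv G (1 + ‖xy F b₁ b₂ (s, z)‖ ^ 2) *
      (2 * inner ℝ (xy F b₁ b₂ (s, z)) (fderiv ℝ (xy F b₁ b₂) (s, z) (0, v))), fun h => by
    rw [h]
    simp, h9.trans ?_⟩
  simp only [Function.comp_apply, zero_smul, add_zero]
  rw [add_comm]

theorem dprim (hG : ContDiff ℝ ∞ G) (h1 : ContDiff ℝ ∞ b₁) (h2 : ContDiff ℝ ∞ b₂) (s : ℝ)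
    (z v : E × E) : fderiv ℝ (prim F G b₁ b₂) (s, z) (0, v) =
      dens G b₁ b₂ (s, tau F z.1) * dt F z.1 v.1 := by
  have h3 := fderiv_line (prim_smooth (F := F) hG h1 h2) s z v
  have hc : Continuous fun r : ℝ => dens G b₁ b₂ (s, r) :=
    (dens_smooth hG h1 h2).continuous.comp (by fun_prop)
  have h4 : HasDerivAt (fun y => ∫ r in (0 : ℝ)..y, dens G b₁ b₂ (s, r))
      (dens G b₁ b₂ (s, tau F (z + (0 : ℝ) • v).1)) (tau F (z + (0 : ℝ) • v).1) :=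
    intervalIntegral.integral_hasDerivAt_right (hc.intervalIntegrable _ _)
      (hc.stronglyMeasurableAtFilter _ _) hc.continuousAt
  have h5 := h4.comp (0 : ℝ) (tau_line F z v)
  have h6 := h3.unique h5
  rw [h6]
  simp

end

end Vale.Agent.P220.R2.H57J
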