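import Vale.Agent.P220.R2.H57J.Moment
import Vale.Agent.P220.R2.H57J.Arc
import Vale.Agent.P220.R2.H57J.Ham
import Vale.Agent.P220.R2.H180.Main

/-!
# Closed exact Lagrangians in the cotangent bundle of a sphere that are invariant under the
rotations of two orthogonal subspaces
-/

open Set Filter Topology
open scoped ContDiff

set_option linter.unusedSectionVars false

namespace Vale.Agent.P220.R2.H57J

open H57 H180

variable {E : Type} [NormedAddCommGroup E] [InnerProductSpace ℝ E] [FiniteDimensional ℝ E]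

/-- the point with the same coordinates in another plane -/
noncomputable def mv (x y x' y' : E) (z : E × E) : E × E :=
  ((inner ℝ x z.1 : ℝ) • x' + (inner ℝ y z.1 : ℝ) • y',
    (inner ℝ x z.2 : ℝ) • x' + (inner ℝ y z.2 : ℝ) • y')

theorem inPl_comb {x y : E} (h : Orth x y) (a b : ℝ) : InPl x y (a • x + b • y) :=
  InPl.smul h.v1 h.w1 h.vw a b rfl

theorem mv_c1 {x' y' : E} (h : Orth x' y') (a b : ℝ) :
    (inner ℝ x' (a • x' + b • y') : ℝ) = a ∧ (inner ℝ y' (a • x' + b • y') : ℝ) = b := by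
  constructor
  · rw [inner_add_right, inner_smul_right, inner_smul_right, h.vv, h.vw]
    ring
  · rw [inner_add_right, inner_smul_right, inner_smul_right, h.ww, h.wv]
    ring

theorem mv_norm {x y x' y' : E} (h : Orth x y) (h' : Orth x' y') {w : E} (hw : InPl x y w) :
    ‖(inner ℝ x w : ℝ) • x' + (inner ℝ y w : ℝ) • y'‖ = ‖w‖ := by
  rw [← sq_eq_sq₀ (norm_nonneg _) (norm_nonneg _), ← h'.sq_sum (inPl_comb h' _ _),
    (mv_c1 h' _ _).1, (mv_c1 h' _ _).2]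
  exact h.sq_sum hw

theorem mv_InT {x y x' y' : E} (h : Orth x y) (h' : Orth x' y') {z : E × E} (hz : InT x y z) :
    InT x' y' (mv x y x' y' z) := by
  refine ⟨(mv_norm h h' hz.p1).trans hz.n1, inPl_comb h' _ _, inPl_comb h' _ _, ?_⟩
  show inner ℝ ((inner ℝ x z.1 : ℝ) • x' + (inner ℝ y z.1 : ℝ) • y')
    ((inner ℝ x z.2 : ℝ) • x' + (inner ℝ y z.2 : ℝ) • y') = (0 : ℝ)
  rw [h'.inner_in (inPl_comb h' _ _) (inPl_comb h' _ _), (mv_c1 h' _ _).1, (mv_c1 h' _ _).1,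
    (mv_c1 h' _ _).2, (mv_c1 h' _ _).2, ← h.inner_in hz.p1 hz.p2]
  exact hz.o

theorem mv_wt {x y x' y' : E} (h : Orth x y) (h' : Orth x' y') {z : E × E} (hz : InT x y z) :
    wt x' (mv x y x' y' z) = wt x z ∧ wt y' (mv x y x' y' z) = wt y z := by
  have h1 : ‖(mv x y x' y' z).2‖ = ‖z.2‖ := mv_norm h h' hz.p2
  have h2 : (inner ℝ x' (mv x y x' y' z).1 : ℝ) = inner ℝ x z.1 := (mv_c1 h' _ _).1
  have h3 : (inner ℝ x' (mv x y x' y' z).2 : ℝ) = inner ℝ x z.2 := (mv_c1 h' _ _).1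
  have h4 : (inner ℝ y' (mv x y x' y' z).1 : ℝ) = inner ℝ y z.1 := (mv_c1 h' _ _).2
  have h5 : (inner ℝ y' (mv x y x' y' z).2 : ℝ) = inner ℝ y z.2 := (mv_c1 h' _ _).2
  unfold wt
  rw [h1, h2, h3, h4, h5]
  exact ⟨rfl, rfl⟩

theorem mv_mv {x y x' y' : E} (h' : Orth x' y') {z : E × E}
    (hz : InT x y z) : mv x' y' x y (mv x y x' y' z) = z := by
  have h2 : (inner ℝ x' (mv x y x' y' z).1 : ℝ) = inner ℝ x z.1 := (mv_c1 h' _ _).1
  have h3 : (inner ℝ x' (mv x y x' y' z).2 : ℝ) = inner ℝ x z.2 := (mv_c1 h' _ _).1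
  have h4 : (inner ℝ y' (mv x y x' y' z).1 : ℝ) = inner ℝ y z.1 := (mv_c1 h' _ _).2
  have h5 : (inner ℝ y' (mv x y x' y' z).2 : ℝ) = inner ℝ y z.2 := (mv_c1 h' _ _).2
  unfold mv at h2 h3 h4 h5 ⊢
  simp only at h2 h3 h4 h5
  simp only [h2, h3, h4, h5]
  exact Prod.ext hz.p1.symm hz.p2.symm

/-- the reflection in a plane preserves the two subspaces -/
theorem refl_mem {F : Submodule ℝ E} {e u : E} (h : Orth e u) (he : e ∈ F) (hu : u ∈ Fᗮ) {x : E}
    (hx : x ∈ F) : (Pl e u).reflection x ∈ F := by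
  have h1 : x - (inner ℝ e x : ℝ) • e ∈ (Pl e u)ᗮ := by
    intro w hw
    have hw' := h.mem_Pl.1 hw
    rw [hw', inner_add_left, inner_smul_left, inner_smul_left, inner_sub_right, inner_sub_right,
      inner_smul_right, inner_smul_right, h.vv, h.wv, in_gf hx hu]
    simp
  have h2 : x = (inner ℝ e x : ℝ) • e + (x - (inner ℝ e x : ℝ) • e) := by abel
  have h3 : (Pl e u).reflection e = e := h.refl_eq.2 (InPl.smul h.v1 h.w1 h.vw 1 0 (by simp))
  have h4 : (Pl e u).reflection x = (inner ℝ e x : ℝ) • e - (x - (inner ℝ e x : ℝ) • e) := by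
    conv_lhs => rw [h2]
    rw [map_add, map_smul, h3, mem_Pl_orth.1 h1, ← sub_eq_add_neg]
  rw [h4]
  exact F.sub_mem (F.smul_mem _ he) (F.sub_mem hx (F.smul_mem _ he))

theorem Pl_comm (e u : E) : Pl e u = Pl u e := by
  unfold Pl
  rw [Set.pair_comm]

/-- a unit vector in a nonzero subspace -/
theorem exists_unit {K : Submodule ℝ E} (h : 1 ≤ Module.finrank ℝ K) : ∃ x ∈ K, ‖x‖ = 1 := by
  have h1 : K ≠ ⊥ := by
    rintro rfl
    rw [finrank_bot] at h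
    omega
  obtain ⟨x, hx, hx0⟩ := Submodule.exists_mem_ne_zero_of_ne_bot h1
  refine ⟨‖x‖⁻¹ • x, K.smul_mem _ hx, ?_⟩
  rw [norm_smul, norm_inv, norm_norm]
  exact inv_mul_cancel₀ (norm_ne_zero_iff.2 hx0)

/-- The theorem for two subspaces of dimension at least two. -/
theorem main_two {n : ℕ} (hn : Module.finrank ℝ E = n + 1) {F : Submodule ℝ E}
    (h2 : 2 ≤ Module.finrank ℝ F) (h3 : 2 ≤ Module.finrank ℝ Fᗮ) {L : Set (E × E)}
    (hL : IsClosedExactLagrangian n (Sph E) L) (hF : RotInvOn F L) (hG : RotInvOn Fᗮ L) :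
    HamIsotopicToZero (Sph E) L := by
  obtain ⟨e, heF, he⟩ := exists_unit (K := F) (by omega)
  obtain ⟨u, huF, hu⟩ := exists_unit (K := Fᗮ) (by omega)
  have h : Orth e u := ⟨he, hu, in_fg heF huF⟩
  have hplane : ∀ z ∈ L, ∃ x ∈ F, ∃ y ∈ Fᗮ, ‖x‖ = 1 ∧ ‖y‖ = 1 ∧ InPl x y z.1 ∧ InPl x y z.2 :=
    fun z hz => exists_plane2 he heF hu huF hL hF hG hz
  have hmove : ∀ z ∈ L, ∀ x ∈ F, ∀ y ∈ Fᗮ, ‖x‖ = 1 → ‖y‖ = 1 → InPl x y z.1 → InPl x y z.2 →
      ∀ x' ∈ F, ∀ y' ∈ Fᗮ, ‖x'‖ = 1 → ‖y'‖ = 1 → mv x y x' y' z ∈ L := by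
    intro z hz x hx y hy hx1 hy1 hz1 hz2 x' hx' y' hy' hx1' hy1'
    refine move h2 h3 hF hG hx1 hx hx1' hx' hy1 hy hy1' hy' ?_
    rw [← hz1, ← hz2]
    exact hz
  have hRL : ∀ z ∈ L, RR e u z ∈ L := by
    intro z hz
    obtain ⟨x, hx, y, hy, hx1, hy1, hz1, hz2⟩ := hplane z hz
    have h4 := hmove z hz x hx y hy hx1 hy1 hz1 hz2 ((Pl e u).reflection x)
      (refl_mem h heF huF hx) ((Pl e u).reflection y) (by
        rw [Pl_comm]
        exact refl_mem h.swap huF (F.le_orthogonal_orthogonal heF) hy)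
      ((LinearIsometryEquiv.norm_map _ _).trans hx1) ((LinearIsometryEquiv.norm_map _ _).trans hy1)
    have h5 : RR e u z = mv x y ((Pl e u).reflection x) ((Pl e u).reflection y) z := by
      rw [RR_apply]
      unfold mv
      rw [← map_smul, ← map_smul, ← map_add, ← map_smul, ← map_smul, ← map_add, ← hz1, ← hz2]
    rw [h5]
    exact h4
  have hcot : ∀ z ∈ L, ‖z.1‖ = 1 ∧ inner ℝ z.1 z.2 = (0 : ℝ) := fun z hz => cot_sph.1 (hL.sub hz)
  -- the slice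
  have hne : (Slc e u L).Nonempty := by
    obtain ⟨z, hz⟩ := hL.nonempty
    obtain ⟨x, hx, y, hy, hx1, hy1, hz1, hz2⟩ := hplane z hz
    exact ⟨_, hmove z hz x hx y hy hx1 hy1 hz1 hz2 e heF u huF he hu,
      h.RR_eq.2 ⟨inPl_comb h _ _, inPl_comb h _ _⟩⟩
  have hS := h.slice_closed hn hL hRL hne
  have hInT : ∀ z ∈ Slc e u L, InT e u z := by
    intro z hz
    obtain ⟨h4, h5⟩ := hcot z hz.1
    obtain ⟨h6, h7⟩ := h.RR_eq.1 hz.2
    exact ⟨h4, h6, h7, h5⟩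
  have hSS : ∀ z ∈ Slc e u L, SS u z ∈ Slc e u L := by
    intro z hz
    have h4 := h.InT_SS (hInT z hz)
    refine ⟨?_, h.RR_eq.2 ⟨h4.p1, h4.p2⟩⟩
    have h5 := hmove z hz.1 e heF u huF he hu (hInT z hz).p1 (hInT z hz).p2 e heF (-u)
      (Fᗮ.neg_mem huF) he (by rw [norm_neg, hu])
    have h6 : SS u z = mv e u e (-u) z := by
      refine Prod.ext ?_ ?_
      · show Refl u z.1 = (inner ℝ e z.1 : ℝ) • e + (inner ℝ u z.1 : ℝ) • -u
        rw [Refl_apply hu]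
        conv_lhs => rw [(hInT z hz).p1, (mv_c1 h _ _).2]
        module
      · show Refl u z.2 = (inner ℝ e z.2 : ℝ) • e + (inner ℝ u z.2 : ℝ) • -u
        rw [Refl_apply hu]
        conv_lhs => rw [(hInT z hz).p2, (mv_c1 h _ _).2]
        module
    rw [h6]
    exact h5
  have hSe : ∀ z ∈ Slc e u L, SS e z ∈ Slc e u L := by
    intro z hz
    have h5 := hmove z hz.1 e heF u huF he hu (hInT z hz).p1 (hInT z hz).p2 (-e) (F.neg_mem heF) u
      huF (by rw [norm_neg, he]) hu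
    have h6 : SS e z = mv e u (-e) u z := by
      refine Prod.ext ?_ ?_
      · show Refl e z.1 = (inner ℝ e z.1 : ℝ) • -e + (inner ℝ u z.1 : ℝ) • u
        rw [Refl_apply he]
        conv_lhs => rw [(hInT z hz).p1, (mv_c1 h _ _).1]
        module
      · show Refl e z.2 = (inner ℝ e z.2 : ℝ) • -e + (inner ℝ u z.2 : ℝ) • u
        rw [Refl_apply he]
        conv_lhs => rw [(hInT z hz).p2, (mv_c1 h _ _).1]
        module
    have h7 : ∀ a b : ℝ, InPl e u (a • -e + b • u) := fun a b => by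
      have h8 : a • -e + b • u = (-a) • e + b • u := by module
      rw [h8]
      exact inPl_comb h _ _
    rw [h6]
    exact ⟨h5, h.RR_eq.2 ⟨h7 _ _, h7 _ _⟩⟩
  obtain ⟨D, hDQ, hDL, hDX⟩ := exists_base' h.circ_closed hS (h.slice_emb hS.sub)
  obtain ⟨Λ⟩ := D.exists_leaf
  obtain ⟨γ, hγ, hγ2⟩ := exists_curve2 h Λ hDQ hDX (by rw [hDL]; exact hSS) (by rw [hDL]; exact hSe)
  rw [hDL] at hγ
  obtain ⟨c, hc, hc1, hc2⟩ := exists_arcQ hγ hγ2 h hInT
  refine ham_of_arcQ he heF hu huF hc fun z => ?_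
  constructor
  · intro hz
    obtain ⟨h4, h5⟩ := hcot z hz
    obtain ⟨x, hx, y, hy, hx1, hy1, hz1, hz2⟩ := hplane z hz
    have ho : Orth x y := ⟨hx1, hy1, in_fg hx hy⟩
    have hT : InT x y z := ⟨h4, hz1, hz2, h5⟩
    refine ⟨h4, h5, x, hx, y, hy, hx1, hy1, hz1, hz2, ?_⟩
    have h6 := hmove z hz x hx y hy hx1 hy1 hz1 hz2 e heF u huF he hu
    have h7 := mv_InT ho h hT
    obtain ⟨τ, hτ, hcτ⟩ := hc1 _ ⟨h6, h.RR_eq.2 ⟨h7.p1, h7.p2⟩⟩
    exact ⟨τ, hτ, by rw [hcτ, (mv_wt ho h hT).2]⟩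
  · rintro ⟨h4, h5, x, hx, y, hy, hx1, hy1, hz1, hz2, τ, hτ, hcτ⟩
    have ho : Orth x y := ⟨hx1, hy1, in_fg hx hy⟩
    have hT : InT x y z := ⟨h4, hz1, hz2, h5⟩
    have hT0 := mv_InT ho h hT
    obtain ⟨z₁, hz₁, hwz₁⟩ := hc2 τ hτ
    have hT1 := hInT z₁ hz₁
    set z₀ := mv x y e u z with hz₀
    have hw0 : wt u z₀ ^ 2 = wt u z₁ ^ 2 := by
      rw [(mv_wt ho h hT).2, ← hcτ, hwz₁]
    have hv0 : wt e z₀ ^ 2 = wt e z₁ ^ 2 := by
      have r0 := h.wt_rel hT0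
      have r1 := h.wt_rel hT1
      linear_combination r0 - r1 - hw0
    have h8 : z₀ ∈ Slc e u L := by
      rcases sq_eq_sq_iff_eq_or_eq_neg.1 hv0 with h9 | h9
      · rcases h.eq_or_of_wt hT0 hT1 h9 with h10 | h10
        · rw [h10]
          exact hz₁
        · rw [h10]
          exact hSS _ hz₁
      · have h11 := hSe _ hz₁
        rw [← h.swap.wtu_SS] at h9
        rcases h.eq_or_of_wt hT0 (hInT _ h11) h9 with h10 | h10
        · rw [h10]
          exact h11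
        · rw [h10]
          exact hSS _ h11
    have h9 := hmove z₀ h8.1 e heF u huF he hu hT0.p1 hT0.p2 x hx y hy hx1 hy1
    rwa [hz₀, mv_mv h hT] at h9

/-- a unit vector spanning a subspace of dimension at most one -/
theorem exists_span {n : ℕ} (hn : Module.finrank ℝ E = n + 1) {K : Submodule ℝ E}
    (h : Module.finrank ℝ K ≤ 1) : ∃ e : E, ‖e‖ = 1 ∧ ∀ x ∈ K, ∃ k : ℝ, x = k • e := by
  rcases Nat.lt_or_ge (Module.finrank ℝ K) 1 with h1 | h1
  · have h0 : Module.finrank ℝ K = 0 := by omega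
    have h2 : K = ⊥ := Submodule.finrank_eq_zero.1 h0
    obtain ⟨e, -, he⟩ := exists_unit (K := (⊤ : Submodule ℝ E)) (by rw [finrank_top]; omega)
    refine ⟨e, he, fun x hx => ⟨0, ?_⟩⟩
    rw [h2, Submodule.mem_bot] at hx
    rw [hx, zero_smul]
  · obtain ⟨e, heK, he⟩ := exists_unit (K := K) h1
    refine ⟨e, he, fun x hx => ?_⟩
    have he0 : (⟨e, heK⟩ : K) ≠ 0 := by
      intro h2
      have h3 : e = 0 := congrArg Subtype.val h2
      rw [h3] at he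
      simp at he
    have h4 : Module.finrank ℝ K = 1 := le_antisymm h h1
    obtain ⟨k, hk⟩ := exists_smul_eq_of_finrank_eq_one h4 he0 (⟨x, hx⟩ : K)
    exact ⟨k, (congrArg Subtype.val hk).symm⟩

/-- **Main theorem.** -/
theorem main {n : ℕ} (hn : Module.finrank ℝ E = n + 1) (h1 : 1 ≤ n) (F : Submodule ℝ E)
    {L : Set (E × E)} (hL : IsClosedExactLagrangian n (Sph E) L)
    (hF : ∀ g : E ≃ₗᵢ[ℝ] E, (∀ x ∈ Fᗮ, g x = x) →
      LinearMap.det (g.toLinearEquiv : E →ₗ[ℝ] E) = 1 → ∀ z ∈ L, (g z.1, g z.2) ∈ L)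
    (hG : ∀ g : E ≃ₗᵢ[ℝ] E, (∀ x ∈ F, g x = x) →
      LinearMap.det (g.toLinearEquiv : E →ₗ[ℝ] E) = 1 → ∀ z ∈ L, (g z.1, g z.2) ∈ L) :
    HamIsotopicToZero (Sph E) L := by
  rcases Nat.lt_or_ge (Module.finrank ℝ F) 2 with h2 | h2
  · obtain ⟨e, he, hsp⟩ := exists_span hn (K := F) (by omega)
    refine H180.main hn h1 he hL fun g hg hd => hG g (fun x hx => ?_) hd
    obtain ⟨k, rfl⟩ := hsp x hx
    rw [map_smul, hg]
  rcases Nat.lt_or_ge (Module.finrank ℝ Fᗮ) 2 with h3 | h3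
  · obtain ⟨e, he, hsp⟩ := exists_span hn (K := Fᗮ) (by omega)
    refine H180.main hn h1 he hL fun g hg hd => hF g (fun x hx => ?_) hd
    obtain ⟨k, rfl⟩ := hsp x hx
    rw [map_smul, hg]
  · exact main_two hn h2 h3 hL hF fun g hg => hG g fun x hx =>
      hg x (F.le_orthogonal_orthogonal hx)

end Vale.Agent.P220.R2.H57J
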