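import Vale.Agent.P220.R2.H57J.Iso

/-!
# Rotations of a subspace act with vanishing moment map
-/

open Set Filter Topology
open scoped ContDiff

set_option linter.unusedSectionVars false

namespace Vale.Agent.P220.R2.H57J

open H57 H180

variable {E : Type} [NormedAddCommGroup E] [InnerProductSpace ℝ E] [FiniteDimensional ℝ E]

/-- invariance under the rotations of `K` -/
def RotInvOn (K : Submodule ℝ E) (L : Set (E × E)) : Prop :=
  ∀ g : E ≃ₗᵢ[ℝ] E, (∀ x ∈ Kᗮ, g x = x) → LinearMap.det (g.toLinearEquiv : E →ₗ[ℝ] E) = 1 →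
    ∀ z ∈ L, (g z.1, g z.2) ∈ L

/-- the moment map vanishes -/
theorem moment {K : Submodule ℝ E} {v w : E} (h : Orth v w) (hv : v ∈ K) (hw : w ∈ K) {n : ℕ}
    {Q : Set E} {L : Set (E × E)} (hL : IsClosedExactLagrangian n Q L) (hr : RotInvOn K L)
    {z : E × E} (hz : z ∈ L) : (inner ℝ v z.1 * inner ℝ w z.2 : ℝ) = inner ℝ w z.1 * inner ℝ v z.2 := by
  obtain ⟨f, hf, hex⟩ := hL.exact
  set γ : ℝ → E × E := fun t => (rt v w t z.1, rt v w t z.2) with hγ
  have hγs : ContDiff ℝ ∞ γ := (h.rt_smooth z.1).prodMk (h.rt_smooth z.2)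
  have hγL : ∀ t, γ t ∈ L := by
    intro t
    have h1 := hr (rtE v w t) (fun x hx => by
      rw [h.rtE_apply, h.rt_fix (in_fg hv hx) (in_fg hw hx)]) (h.rtE_det t) z hz
    rwa [h.rtE_apply, h.rtE_apply] at h1
  have hγd : ∀ t, HasDerivAt γ (((-Real.sin t * inner ℝ v z.1 - Real.cos t * inner ℝ w z.1) • v +
      (-Real.sin t * inner ℝ w z.1 + Real.cos t * inner ℝ v z.1) • w),
      ((-Real.sin t * inner ℝ v z.2 - Real.cos t * inner ℝ w z.2) • v +
      (-Real.sin t * inner ℝ w z.2 + Real.cos t * inner ℝ v z.2) • w)) t := fun t =>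
    (h.rt_deriv z.1 t).prodMk (h.rt_deriv z.2 t)
  set k : ℝ := inner ℝ v z.1 * inner ℝ w z.2 - inner ℝ w z.1 * inner ℝ v z.2 with hk
  have hfd : ∀ t, HasDerivAt (fun t => f (γ t) - t * k) 0 t := by
    intro t
    have h1 : HasDerivAt (fun t => f (γ t)) _ t :=
      (hf.differentiable (by simp) (γ t)).hasFDerivAt.comp_hasDerivAt t (hγd t)
    have h2 : (((-Real.sin t * inner ℝ v z.1 - Real.cos t * inner ℝ w z.1) • v +
      (-Real.sin t * inner ℝ w z.1 + Real.cos t * inner ℝ v z.1) • w),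
      ((-Real.sin t * inner ℝ v z.2 - Real.cos t * inner ℝ w z.2) • v +
      (-Real.sin t * inner ℝ w z.2 + Real.cos t * inner ℝ v z.2) • w)) ∈ Tan L (γ t) := by
      refine ⟨fun s => γ (t + s), hγs.comp (contDiff_const.add contDiff_id), fun s => hγL _,
        by simp, ?_⟩
      have h3 := (hγd (t + 0)).scomp (0 : ℝ) ((hasDerivAt_id (0 : ℝ)).const_add t)
      simp only [one_smul, add_zero] at h3
      exact h3.deriv
    rw [hex _ (hγL t) _ h2] at h1
    have h4 := h1.sub ((hasDerivAt_id t).mul_const k)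
    refine h4.congr_deriv ?_
    simp only [lam, hγ, rt, inner_add_left, inner_add_right, inner_smul_left, inner_smul_right,
      h.vv, h.ww, h.vw, h.wv, hk, conj_trivial]
    have h5 := Real.sin_sq_add_cos_sq t
    rw [real_inner_comm v z.2, real_inner_comm w z.2]
    linear_combination (inner ℝ v z.1 * inner ℝ w z.2 - inner ℝ w z.1 * inner ℝ v z.2) * h5
  have hc := is_const_of_deriv_eq_zero (fun t => (hfd t).differentiableAt)
    (fun t => (hfd t).deriv) (2 * Real.pi) 0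
  have h0 : γ (2 * Real.pi) = γ 0 := by simp [hγ, rt]
  simp only [h0, zero_mul, sub_zero] at hc
  have h6 : 2 * Real.pi * k = 0 := by linarith
  have h7 : k = 0 := by
    rcases mul_eq_zero.1 h6 with h8 | h8
    · exact absurd h8 (by positivity)
    · exact h8
  rw [hk] at h7
  linarith

/-- the inner product with a vector of `K` only sees the component in `K` -/
theorem in_pf {K : Submodule ℝ E} {x : E} (hx : x ∈ K) (y : E) :
    (inner ℝ x (pf K y) : ℝ) = inner ℝ x y := by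
  conv_rhs => rw [← pf_add_pg K y]
  rw [inner_add_right, in_fg hx (pg_mem K y), add_zero]

/-- the components in `K` of a point of `L` lie on a line -/
theorem exists_line {K : Submodule ℝ E} {x₀ : E} (hx₀ : ‖x₀‖ = 1) (hx₀K : x₀ ∈ K) {n : ℕ}
    {Q : Set E} {L : Set (E × E)} (hL : IsClosedExactLagrangian n Q L) (hr : RotInvOn K L)
    {z : E × E} (hz : z ∈ L) : ∃ x ∈ K, ‖x‖ = 1 ∧ pf K z.1 = (inner ℝ x z.1 : ℝ) • x ∧
      pf K z.2 = (inner ℝ x z.2 : ℝ) • x := by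
  have key : ∀ x ∈ K, ‖x‖ = 1 → ∀ (y : E) (k : ℝ), pf K y = k • x → pf K y = (inner ℝ x y : ℝ) • x := by
    intro x hx hx1 y k hk
    rw [← in_pf hx y, hk, inner_smul_right, e_e hx1, mul_one]
  have hunit : ∀ x : E, x ≠ 0 → ‖‖x‖⁻¹ • x‖ = 1 := fun x hx => by
    rw [norm_smul, norm_inv, norm_norm]
    exact inv_mul_cancel₀ (norm_ne_zero_iff.2 hx)
  have hback : ∀ x : E, x ≠ 0 → x = ‖x‖ • (‖x‖⁻¹ • x) := fun x hx => by
    rw [smul_smul, mul_inv_cancel₀ (norm_ne_zero_iff.2 hx), one_smul]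
  by_cases h1 : pf K z.1 = 0
  · by_cases h2 : pf K z.2 = 0
    · exact ⟨x₀, hx₀K, hx₀, key _ hx₀K hx₀ _ 0 (by rw [h1, zero_smul]),
        key _ hx₀K hx₀ _ 0 (by rw [h2, zero_smul])⟩
    · have hm : ‖pf K z.2‖⁻¹ • pf K z.2 ∈ K := K.smul_mem _ (pf_mem K _)
      exact ⟨_, hm, hunit _ h2, key _ hm (hunit _ h2) _ 0 (by rw [h1, zero_smul]),
        key _ hm (hunit _ h2) _ ‖pf K z.2‖ (hback _ h2)⟩
  · have hm : ‖pf K z.1‖⁻¹ • pf K z.1 ∈ K := K.smul_mem _ (pf_mem K _)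
    have hx := hunit _ h1
    have hb := hback _ h1
    set x : E := ‖pf K z.1‖⁻¹ • pf K z.1 with hxdef
    refine ⟨x, hm, hx, key _ hm hx _ _ hb, ?_⟩
    set d : E := pf K z.2 - (inner ℝ x z.2 : ℝ) • x with hd
    by_cases h2 : d = 0
    · exact sub_eq_zero.1 h2
    · exfalso
      have hdK : d ∈ K := K.sub_mem (pf_mem K _) (K.smul_mem _ hm)
      have hw := hunit _ h2
      have hwK : ‖d‖⁻¹ • d ∈ K := K.smul_mem _ hdK
      have hxd : inner ℝ x d = (0 : ℝ) := by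
        rw [hd, inner_sub_right, inner_smul_right, e_e hx, in_pf hm]
        ring
      have hdz : inner ℝ d z.2 = (‖d‖ ^ 2 : ℝ) := by
        have hdx : inner ℝ d x = (0 : ℝ) := by rw [real_inner_comm]; exact hxd
        rw [← real_inner_self_eq_norm_sq, ← in_pf hdK]
        have h4 : pf K z.2 = (inner ℝ x z.2 : ℝ) • x + d := by rw [hd]; abel
        rw [h4, inner_add_right, inner_smul_right, hdx]
        ring
      set w : E := ‖d‖⁻¹ • d with hwdef
      have ho : Orth x w := ⟨hx, hw, by rw [hwdef, inner_smul_right, hxd, mul_zero]⟩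
      have h5 := moment ho hm hwK hL hr hz
      have h6 : inner ℝ w z.1 = (0 : ℝ) := by
        rw [← in_pf hwK, hb, inner_smul_right, ho.wv, mul_zero]
      have h7 : inner ℝ x z.1 = (‖pf K z.1‖ : ℝ) := by
        rw [← in_pf hm]
        conv_lhs => rw [hb]
        rw [inner_smul_right, e_e hx, mul_one]
      have h8 : inner ℝ w z.2 = (‖d‖ : ℝ) := by
        rw [hwdef, inner_smul_left, hdz]
        have : ‖d‖ ≠ 0 := norm_ne_zero_iff.2 h2
        simp
        field_simp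
      rw [h6, h7, h8, zero_mul] at h5
      rcases mul_eq_zero.1 h5 with h9 | h9
      · exact h1 (norm_eq_zero.1 h9)
      · exact h2 (norm_eq_zero.1 h9)

/-- a unit vector of `K` orthogonal to a given one -/
theorem exists_perp {K : Submodule ℝ E} (h2 : 2 ≤ Module.finrank ℝ K) {x : E} (hx : ‖x‖ = 1)
    (hxK : x ∈ K) : ∃ w ∈ K, Orth x w := by
  have hx0 : x ≠ 0 := by
    rintro rfl
    simp at hx
  have hle : (ℝ ∙ x) ≤ K := by
    rw [Submodule.span_singleton_le_iff_mem]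
    exact hxK
  have h3 := Submodule.finrank_add_inf_finrank_orthogonal hle
  rw [finrank_span_singleton hx0] at h3
  have h4 : (ℝ ∙ x)ᗮ ⊓ K ≠ ⊥ := by
    intro h5
    rw [h5, finrank_bot] at h3
    omega
  obtain ⟨w, hw, hw0⟩ := Submodule.exists_mem_ne_zero_of_ne_bot h4
  refine ⟨‖w‖⁻¹ • w, K.smul_mem _ hw.2, hx, ?_, ?_⟩
  · rw [norm_smul, norm_inv, norm_norm]
    exact inv_mul_cancel₀ (norm_ne_zero_iff.2 hw0)
  · rw [inner_smul_right, hw.1 x (Submodule.mem_span_singleton_self x), mul_zero]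

/-- moving the direction in `K` -/
theorem move_one {K : Submodule ℝ E} (h2 : 2 ≤ Module.finrank ℝ K) {L : Set (E × E)}
    (hr : RotInvOn K L) {x x' : E} (hx : ‖x‖ = 1) (hxK : x ∈ K) (hx' : ‖x'‖ = 1) (hx'K : x' ∈ K)
    {a b : ℝ} {p q : E} (hp : p ∈ Kᗮ) (hq : q ∈ Kᗮ) (hz : (a • x + p, b • x + q) ∈ L) :
    (a • x' + p, b • x' + q) ∈ L := by
  by_cases hxx : x = x'
  · rwa [← hxx]
  obtain ⟨w, hwK, how⟩ := exists_perp h2 hx hxK
  have hd : x - x' ≠ 0 := sub_ne_zero.2 hxx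
  have hn : ‖x - x'‖ ≠ 0 := norm_ne_zero_iff.2 hd
  have ha : ‖‖x - x'‖⁻¹ • (x - x')‖ = 1 := by
    rw [norm_smul, norm_inv, norm_norm]
    exact inv_mul_cancel₀ hn
  have haK : ‖x - x'‖⁻¹ • (x - x') ∈ K := K.smul_mem _ (K.sub_mem hxK hx'K)
  have g1 : ∀ y ∈ Kᗮ, Refl (‖x - x'‖⁻¹ • (x - x')) y = y := by
    intro y hy
    rw [Refl_apply ha, in_fg haK hy]
    simp
  have g2 : ∀ y ∈ Kᗮ, Refl w y = y := by
    intro y hy
    rw [Refl_apply how.w1, in_fg hwK hy]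
    simp
  have g3 : Refl w x = x := by
    rw [Refl_apply how.w1, how.wv]
    simp
  have g4 : Refl (‖x - x'‖⁻¹ • (x - x')) x = x' := by
    rw [Refl_apply ha, inner_smul_left, smul_smul]
    have h1 : (inner ℝ (x - x') x : ℝ) = ‖x - x'‖ ^ 2 / 2 := by
      rw [← real_inner_self_eq_norm_sq, inner_sub_left, inner_sub_left, inner_sub_right,
        inner_sub_right, e_e hx, e_e hx', real_inner_comm x' x]
      ring
    have h2 : 2 * ((starRingEnd ℝ) ‖x - x'‖⁻¹ * inner ℝ (x - x') x) * ‖x - x'‖⁻¹ = 1 := by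
      rw [h1]
      simp only [conj_trivial]
      field_simp
    rw [h2, one_smul]
    abel
  have h4 := hr ((Refl w).trans (Refl (‖x - x'‖⁻¹ • (x - x')))) (fun y hy => by
    show Refl (‖x - x'‖⁻¹ • (x - x')) (Refl w y) = y
    rw [g2 y hy, g1 y hy]) (by
    have : (((Refl w).trans (Refl (‖x - x'‖⁻¹ • (x - x')))).toLinearEquiv : E →ₗ[ℝ] E) =
      ((Refl (‖x - x'‖⁻¹ • (x - x'))).toLinearEquiv : E →ₗ[ℝ] E) ∘ₗ
        ((Refl w).toLinearEquiv : E →ₗ[ℝ] E) := rfl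
    rw [this, LinearMap.det_comp, Refl_det ha, Refl_det how.w1]
    norm_num) _ hz
  have h5 : ∀ (k : ℝ) (y : E), y ∈ Kᗮ →
      ((Refl w).trans (Refl (‖x - x'‖⁻¹ • (x - x')))) (k • x + y) = k • x' + y := by
    intro k y hy
    show Refl (‖x - x'‖⁻¹ • (x - x')) (Refl w (k • x + y)) = k • x' + y
    rw [map_add, map_smul, g3, g2 y hy, map_add, map_smul, g4, g1 y hy]
  rwa [h5 a p hp, h5 b q hq] at h4

/-- moving both directions -/
theorem move {F : Submodule ℝ E} (h2 : 2 ≤ Module.finrank ℝ F) (h3 : 2 ≤ Module.finrank ℝ Fᗮ)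
    {L : Set (E × E)} (hF : RotInvOn F L) (hG : RotInvOn Fᗮ L) {x x' y y' : E}
    (hx : ‖x‖ = 1) (hxF : x ∈ F) (hx' : ‖x'‖ = 1) (hx'F : x' ∈ F)
    (hy : ‖y‖ = 1) (hyF : y ∈ Fᗮ) (hy' : ‖y'‖ = 1) (hy'F : y' ∈ Fᗮ)
    {a b a' b' : ℝ} (hz : (a • x + b • y, a' • x + b' • y) ∈ L) :
    (a • x' + b • y', a' • x' + b' • y') ∈ L := by
  have h4 := move_one h2 hF hx hxF hx' hx'F (Fᗮ.smul_mem b hyF) (Fᗮ.smul_mem b' hyF) hz
  have h5 : x' ∈ Fᗮᗮ := F.le_orthogonal_orthogonal hx'F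
  rw [add_comm, add_comm (a' • x')] at h4
  have h6 := move_one h3 hG hy hyF hy' hy'F (Fᗮᗮ.smul_mem a h5) (Fᗮᗮ.smul_mem a' h5) h4
  rwa [add_comm, add_comm (a' • x')]

/-- every point of `L` lies in a plane -/
theorem exists_plane2 {F : Submodule ℝ E} {x₀ y₀ : E} (hx₀ : ‖x₀‖ = 1) (hx₀F : x₀ ∈ F)
    (hy₀ : ‖y₀‖ = 1) (hy₀F : y₀ ∈ Fᗮ) {n : ℕ}
    {Q : Set E} {L : Set (E × E)} (hL : IsClosedExactLagrangian n Q L) (hF : RotInvOn F L)
    (hG : RotInvOn Fᗮ L) {z : E × E} (hz : z ∈ L) : ∃ x ∈ F, ∃ y ∈ Fᗮ, ‖x‖ = 1 ∧ ‖y‖ = 1 ∧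
      InPl x y z.1 ∧ InPl x y z.2 := by
  obtain ⟨x, hxF, hx, h1, h2⟩ := exists_line hx₀ hx₀F hL hF hz
  obtain ⟨y, hyF, hy, h3, h4⟩ := exists_line hy₀ hy₀F hL hG hz
  have hpg : ∀ w : E, pf Fᗮ w = pg F w := by
    intro w
    conv_lhs => rw [← pf_add_pg F w]
    rw [map_add, pf_of_orth (F.le_orthogonal_orthogonal (pf_mem F w)), pf_of_mem (pg_mem F w),
      zero_add]
  refine ⟨x, hxF, y, hyF, hx, hy, ?_, ?_⟩
  · unfold InPl
    rw [← h1, ← h3, hpg, pf_add_pg]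
  · unfold InPl
    rw [← h2, ← h4, hpg, pf_add_pg]

end Vale.Agent.P220.R2.H57J
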